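import Vale.Agent.P109.Spectral.Step.Measure

/-!
P109: measurable shears and their approximation by smooth periodic shears.
-/

namespace Vale.Agent.P109.Spectral

open MeasureTheory

noncomputable section

/-- coordinate `i0` is moved by a function of the multiples `n k • z (c k)` -/
structure Shear (ι : Type) where
  κ : Type
  fin : Fintype κ
  i0 : ι
  c : κ → ι
  inj : Function.Injective c
  ne : ∀ k, c k ≠ i0
  n : κ → ℕ
  n_pos : ∀ k, 0 < n k
  h : (κ → UnitAddCircle) → UnitAddCircle
  measurable_h : Measurable h

attribute [instance] Shear.fin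

variable {ι : Type} [Fintype ι] [DecidableEq ι]

/-- the multiples the shear depends on -/
def Shear.arg (s : Shear ι) : Tor ι →+ (s.κ → UnitAddCircle) where
  toFun z := fun k => s.n k • z (s.c k)
  map_zero' := by funext k; simp
  map_add' z w := by funext k; simp

/-- the map of the torus -/
def Shear.map (s : Shear ι) (z : Tor ι) : Tor ι :=
  Function.update z s.i0 (z s.i0 + s.h (s.arg z))

omit [Fintype ι] [DecidableEq ι] in
theorem Shear.continuous_arg (s : Shear ι) : Continuous s.arg :=
  continuous_pi fun k => (continuous_apply (s.c k)).nsmul _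

omit [Fintype ι] in
theorem Shear.map_apply_ne (s : Shear ι) (z : Tor ι) {i : ι} (hi : i ≠ s.i0) :
    s.map z i = z i := Function.update_of_ne hi _ _

omit [Fintype ι] in
theorem Shear.map_apply_self (s : Shear ι) (z : Tor ι) :
    s.map z s.i0 = z s.i0 + s.h (s.arg z) := Function.update_self _ _ _

omit [DecidableEq ι] in
theorem Shear.preserves_arg (s : Shear ι) :
    MeasurePreserving s.arg volume volume := by
  classical
  refine AddMonoidHom.measurePreserving s.continuous_arg (fun w => ?_) ?_
  swap
  · rw [show (volume : Measure (Tor s.κ)) Set.univ = 1 from ?_, show (volume : Measure (Tor ι)) Set.univ = 1 from ?_]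
    all_goals (rw [volume_pi, Measure.pi_univ]; simp)
  choose x hx using fun k => QuotientAddGroup.mk_surjective (w k)
  refine ⟨fun i => if hi : ∃ k, s.c k = i then ((x hi.choose / s.n hi.choose : ℝ) : UnitAddCircle)
    else 0, funext fun k => ?_⟩
  change s.n k • dite _ _ _ = w k
  have hk : ∃ k', s.c k' = s.c k := ⟨k, rfl⟩
  rw [dif_pos hk, s.inj hk.choose_spec, ← QuotientAddGroup.mk_nsmul, nsmul_eq_mul,
    mul_div_cancel₀ _ (by exact_mod_cast (s.n_pos k).ne'), hx]

theorem Shear.measurable_map (s : Shear ι) : Measurable s.map := by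
  refine measurable_pi_iff.mpr fun i => ?_
  by_cases hi : i = s.i0
  · subst hi
    simp only [Shear.map_apply_self]
    exact (measurable_pi_apply _).add (s.measurable_h.comp s.continuous_arg.measurable)
  · simp only [s.map_apply_ne _ hi]
    exact measurable_pi_apply i

theorem Shear.preserves (s : Shear ι) : MeasurePreserving s.map volume volume := by
  classical
  let p : ι → Prop := fun i => i = s.i0
  let : Fintype {i // p i} := Subtype.fintype p
  let e := MeasurableEquiv.piEquivPiSubtypeProd (fun _ : ι => UnitAddCircle) p
  have he : MeasurePreserving e volume volume :=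
    volume_preserving_piEquivPiSubtypeProd (fun _ : ι => UnitAddCircle) p
  let fr : ({i // ¬ p i} → UnitAddCircle) → UnitAddCircle :=
    fun b => s.h fun k => s.n k • b ⟨s.c k, s.ne k⟩
  have hfr : Measurable fr := s.measurable_h.comp
    (continuous_pi fun k => (continuous_apply _).nsmul _).measurable
  have hskew : MeasurePreserving (fun q : ({i // ¬ p i} → UnitAddCircle) × ({i // p i} → UnitAddCircle) =>
      (q.1, q.2 + fun _ => fr q.1)) (volume.prod volume) (volume.prod volume) := by
    refine (MeasurePreserving.id _).skew_product ?_ (Filter.Eventually.of_forall fun b =>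
      (measurePreserving_add_right volume fun _ => fr b).map_eq)
    exact measurable_snd.add (measurable_pi_iff.mpr fun _ => hfr.comp measurable_fst)
  have hswap := Measure.measurePreserving_swap
    (μ := (volume : Measure ({i // p i} → UnitAddCircle)))
    (ν := (volume : Measure ({i // ¬ p i} → UnitAddCircle)))
  have hswap' := Measure.measurePreserving_swap
    (μ := (volume : Measure ({i // ¬ p i} → UnitAddCircle)))
    (ν := (volume : Measure ({i // p i} → UnitAddCircle)))
  have key := (MeasurePreserving.symm e he).comp ((hswap'.comp (hskew.comp hswap)).comp he)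
  have e2 : s.map = e.symm ∘ ((Prod.swap ∘ (fun q : ({i // ¬ p i} → UnitAddCircle) × ({i // p i} → UnitAddCircle) =>
      (q.1, q.2 + fun _ => fr q.1)) ∘ Prod.swap) ∘ e) := ?_
  · rw [e2]; exact key
  funext z
  simp only [Function.comp_apply]
  rw [← e.symm_apply_apply (s.map z)]
  congr 1
  refine Prod.ext (funext fun i => ?_) (funext fun i => ?_)
  · obtain ⟨i, rfl⟩ := i
    exact s.map_apply_self z
  · exact s.map_apply_ne z i.2

/-- shears are limits in measure of diffeomorphisms commuting with the translations fixing their
argument -/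
theorem Shear.approximable (s : Shear ι) (t : ι → ℝ) (ht0 : ∀ k, ∃ l : ℤ, (s.n k : ℝ) * t (s.c k) = l) :
    Approximable (Comm t) s.map := by
  intro ε hε
  obtain ⟨F, hF, hFc⟩ := exists_smooth_near (fun w => frac (s.h w))
    (measurable_frac.comp s.measurable_h) 1
    (fun w => by rw [abs_of_nonneg (frac_mem _).1]; exact (frac_mem _).2.le) ε hε
  let s' : Shear ι := { s with
    h := fun w => ((F w : ℝ) : UnitAddCircle)
    measurable_h := ((AddCircle.continuous_mk' _).comp F.continuous).measurable }
  let sneg : Shear ι := { s with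
    h := fun w => -((F w : ℝ) : UnitAddCircle)
    measurable_h := ((AddCircle.continuous_mk' _).comp F.continuous).neg.measurable }
  let cf : (ι → ℝ) → (s.κ → ℝ) := fun x k => (s.n k : ℝ) * x (s.c k)
  let φ : (ι → ℝ) → ℝ := fun x => F (proj (cf x))
  have hφs : ContDiff ℝ (⊤ : ℕ∞) φ :=
    hF.comp (contDiff_pi.mpr fun k => contDiff_const.mul (contDiff_apply ℝ ℝ (s.c k)))
  have hφi : ∀ (x : ι → ℝ) (a : ℝ), φ (x + Pi.single s.i0 a) = φ x := by
    intro x a
    simp only [φ, cf]
    congr 2
    funext k
    simp [Pi.single_eq_of_ne (s.ne k)]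
  have hφper : ∀ (x y : ι → ℝ), (∀ k, ∃ l : ℤ, (s.n k : ℝ) * y (s.c k) = l) → φ (x + y) = φ x := by
    intro x y hy
    refine congrArg F (funext fun k => ?_)
    obtain ⟨l, hl⟩ := hy k
    simp only [proj, cf, Pi.add_apply, mul_add, hl]
    rw [show ((l : ℝ)) = ((l : ℤ) : ℝ) from rfl, QuotientAddGroup.mk_add]
    exact add_eq_left.mpr ((AddCircle.coe_eq_zero_iff 1).mpr ⟨l, by simp⟩)
  have hπ : ∀ x : ι → ℝ, s.arg (proj x) = proj (cf x) := by
    intro x
    funext k
    change s.n k • ((x (s.c k) : ℝ) : UnitAddCircle) =
      (((s.n k : ℝ) * x (s.c k) : ℝ) : UnitAddCircle)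
    rw [← AddCircle.coe_nsmul, nsmul_eq_mul]
  have hsm : ∀ (f : (ι → ℝ) → ℝ), ContDiff ℝ (⊤ : ℕ∞) f →
      ContDiff ℝ (⊤ : ℕ∞) fun x : ι → ℝ => x + Pi.single s.i0 (f x) := fun f hf =>
    contDiff_id.add ((ContinuousLinearMap.single ℝ (fun _ : ι => ℝ) s.i0).contDiff.comp hf)
  have hmap : ∀ (z : Tor ι), sneg.map (s'.map z) = z ∧ s'.map (sneg.map z) = z := by
    intro z
    have ha : ∀ (r : Tor ι), (∀ i, i ≠ s.i0 → r i = z i) → s.arg r = s.arg z := fun r hr => by
      funext k
      change s.n k • r (s.c k) = s.n k • z (s.c k)
      rw [hr _ (s.ne k)]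
    constructor
    · funext i
      by_cases hi : i = s.i0
      · subst hi
        refine (sneg.map_apply_self (s'.map z)).trans ?_
        rw [show sneg.arg (s'.map z) = s.arg z from ha _ fun i hi => s'.map_apply_ne z hi,
          show s'.map z sneg.i0 = z s.i0 + s'.h (s.arg z) from s'.map_apply_self z]
        exact add_neg_cancel_right _ _
      · exact (sneg.map_apply_ne _ hi).trans (s'.map_apply_ne _ hi)
    · funext i
      by_cases hi : i = s.i0
      · subst hi
        refine (s'.map_apply_self (sneg.map z)).trans ?_
        rw [show s'.arg (sneg.map z) = s.arg z from ha _ fun i hi => sneg.map_apply_ne z hi,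
          show sneg.map z s'.i0 = z s.i0 + sneg.h (s.arg z) from sneg.map_apply_self z]
        exact neg_add_cancel_right _ _
      · exact (s'.map_apply_ne _ hi).trans (sneg.map_apply_ne _ hi)
  have hct : ∀ (r : Shear ι), Continuous r.h → Continuous r.map := fun r hr =>
    continuous_id.update _ ((continuous_apply _).add (hr.comp r.continuous_arg))
  let D : TD ι :=
    { f := fun x => x + Pi.single s.i0 (φ x)
      g := fun x => x + Pi.single s.i0 (-φ x)
      A := AddEquiv.refl _
      smooth_f := hsm φ hφs
      smooth_g := hsm (fun x => -φ x) hφs.neg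
      gf := fun x => by simp [hφi, Pi.single_neg]
      fg := fun x => by
        rw [hφi, add_assoc, ← Pi.single_add, neg_add_cancel, Pi.single_zero, add_zero]
      equivariant := fun x k => by
        have := hφper x (intVec k) fun j => ⟨s.n j * k (s.c j), by simp [intVec]⟩
        rw [this]
        simp [add_right_comm]
      map :=
        { toFun := s'.map
          invFun := sneg.map
          left_inv := fun z => (hmap z).1
          right_inv := fun z => (hmap z).2
          continuous_toFun := hct s' ((AddCircle.continuous_mk' _).comp F.continuous)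
          continuous_invFun := hct sneg ((AddCircle.continuous_mk' _).comp F.continuous).neg }
      map_proj := fun x => by
        change Function.update (proj x) s.i0 (proj x s.i0 + ((F (s.arg (proj x)) : ℝ) : UnitAddCircle)) = _
        rw [hπ]
        funext i
        by_cases hi : i = s.i0
        · subst hi; simp [proj, φ]
        · simp [proj, Function.update_of_ne hi, Pi.single_eq_of_ne hi]
      preserves := s'.preserves }
  refine ⟨D, fun x => ?_, ?_⟩
  · change x + t + Pi.single s.i0 (φ (x + t)) = x + Pi.single s.i0 (φ x) + t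
    rw [hφper x t ht0, add_right_comm]
  · refine (measure_mono fun z (hz : ε < dist (s'.map z) (s.map z)) => ?_).trans
      (hFc.comp s.preserves_arg)
    by_contra hn
    simp only [Set.mem_ofPred_eq, Function.comp_apply, not_lt] at hn
    refine absurd hz (not_lt.mpr ((dist_pi_le_iff hε.le).mpr fun i => ?_))
    by_cases hi : i = s.i0
    · subst hi
      rw [s.map_apply_self, show s'.map z s.i0 = z s.i0 + ((F (s.arg z) : ℝ) : UnitAddCircle) from
        s'.map_apply_self z, dist_add_left]
      conv_lhs => rw [← coe_frac (s.h (s.arg z))]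
      rw [dist_eq_norm, ← QuotientAddGroup.mk_sub]
      exact QuotientAddGroup.norm_mk_le_norm.trans (by rwa [← dist_eq_norm])
    · rw [s.map_apply_ne _ hi, show s'.map z i = z i from s'.map_apply_ne z hi, dist_self]
      exact hε.le

omit [DecidableEq ι] in
theorem Comm.comp {t : ι → ℝ} {D E : TD ι} (hD : Comm t D) (hE : Comm t E) : Comm t (D.comp E) :=
  fun x => by simp only [TD.comp, Function.comp_apply, hE x, hD (E.f x)]

omit [DecidableEq ι] in
theorem Comm.rot (t s : ι → ℝ) : Comm t (TD.rot s) := fun x => by simp [TD.rot, add_right_comm]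

end

end Vale.Agent.P109.Spectral
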