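import Vale.Agent.P109.Spectral.Step.Sector
import Vale.Agent.P109.Spectral.Step.Shear

/-!
P109: the concentrator and the interface for renormalisations.
-/

namespace Vale.Agent.P109.Spectral

open MeasureTheory

noncomputable section

variable {d : ℕ}

/-- the standard lift of `(β, 1/q, 0)` -/
def baseVec (q : ℕ) (β : Fin d → ℝ) : Ix d → ℝ := Sum.elim β ![(1 : ℝ) / q, 0]

theorem exists_intVec_of_proj_eq {ι : Type} {s t : ι → ℝ} (h : proj t = proj s) :
    ∃ k : ι → ℤ, t = s + intVec k := by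
  have : ∀ i, ∃ n : ℤ, t i = s i + n := fun i => by
    have hi : ((t i - s i : ℝ) : UnitAddCircle) = 0 := by
      rw [QuotientAddGroup.mk_sub]
      exact sub_eq_zero.mpr (congrFun h i)
    obtain ⟨n, hn⟩ := (AddCircle.coe_eq_zero_iff 1).mp hi
    exact ⟨n, by simp only [zsmul_eq_mul, mul_one] at hn; linarith⟩
  choose k hk using this
  exact ⟨k, funext hk⟩

theorem mult_x {q : ℕ} (hq : 0 < q) {β : Fin d → ℝ} {t : Ix d → ℝ}
    (h : proj t = proj (baseVec q β)) : ∃ l : ℤ, (q : ℝ) * t (Sum.inr 0) = l := by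
  obtain ⟨k, rfl⟩ := exists_intVec_of_proj_eq h
  refine ⟨1 + q * k (Sum.inr 0), ?_⟩
  simp [baseVec, intVec, mul_add, hq.ne']

theorem mult_y {q : ℕ} (n : ℕ) {β : Fin d → ℝ} {t : Ix d → ℝ}
    (h : proj t = proj (baseVec q β)) : ∃ l : ℤ, (n : ℝ) * t (Sum.inr 1) = l := by
  obtain ⟨k, rfl⟩ := exists_intVec_of_proj_eq h
  exact ⟨n * k (Sum.inr 1), by simp [baseVec, intVec]⟩

theorem Stage.proj_vec (σ : Stage d) : proj σ.vec = proj (baseVec σ.q σ.β) := by
  rw [show σ.vec = baseVec σ.q σ.β + intVec σ.k from rfl, proj_add, proj_intVec, add_zero]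

/-- a shear depending on one coordinate -/
def shear1 {ι : Type} (i j : ι) (hne : j ≠ i) (n : ℕ) (hn : 0 < n)
    (g : UnitAddCircle → UnitAddCircle) (hg : Measurable g) : Shear ι where
  κ := Unit
  fin := inferInstance
  i0 := i
  c _ := j
  inj := Function.injective_of_subsingleton _
  ne _ := hne
  n _ := n
  n_pos _ := hn
  h w := g (w ())
  measurable_h := hg.comp (measurable_pi_apply _)

theorem shear1_map {ι : Type} [Fintype ι] [DecidableEq ι] (i j : ι) (hne : j ≠ i) (n : ℕ)
    (hn : 0 < n) (g : UnitAddCircle → UnitAddCircle) (hg : Measurable g) (z : Tor ι) :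
    (shear1 i j hne n hn g hg).map z = Function.update z i (z i + g (n • z j)) := rfl

theorem measurable_coe : Measurable fun t : ℝ => (t : UnitAddCircle) :=
  (AddCircle.continuous_mk' _).measurable

/-- three shears moving the sector coordinate to a function of the sector and of the band position -/
theorem exists_conc (σ : Stage d) (K : ℕ) (hK : 0 < K) :
    ∃ h0 : Tor (Ix d) → Tor (Ix d), MeasurePreserving h0 volume volume ∧
      Approximable (Comm σ.vec) h0 ∧ (∀ z, labCoord σ.q (h0 z) = labCoord σ.q z) ∧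
      ∀ z, (∀ i, h0 z (Sum.inl i) = z (Sum.inl i)) ∧
        h0 z (Sum.inr 0) = sector σ.q (z (Sum.inr 0)) +
          ((frac (-(K • z (Sum.inr 1))) / σ.q : ℝ) : UnitAddCircle) ∧
        dist (h0 z (Sum.inr 1)) (z (Sum.inr 1)) ≤ 1 / K := by
  have hq := σ.q_pos
  let X : Ix d := Sum.inr 0
  let Y : Ix d := Sum.inr 1
  have hXY : X ≠ Y := by simp [X, Y]
  let g1 : UnitAddCircle → UnitAddCircle := fun w => ((frac (-w) / σ.q : ℝ) : UnitAddCircle)
  let g2 : UnitAddCircle → UnitAddCircle := fun w => ((frac w / K : ℝ) : UnitAddCircle)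
  let g3 : UnitAddCircle → UnitAddCircle := fun w => -((frac w / σ.q : ℝ) : UnitAddCircle)
  have hg1 : Measurable g1 :=
    measurable_coe.comp ((measurable_frac.comp measurable_neg).div_const _)
  have hg2 : Measurable g2 := measurable_coe.comp (measurable_frac.div_const _)
  have hg3 : Measurable g3 := (measurable_coe.comp (measurable_frac.div_const _)).neg
  let s1 := shear1 X Y hXY.symm K hK g1 hg1
  let s2 := shear1 Y X hXY σ.q hq g2 hg2
  let s3 := shear1 X Y hXY.symm K hK g3 hg3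
  have hp := s1.preserves
  have hp2 := s2.preserves
  have hy : ∀ (_ : Unit), ∃ l : ℤ, (K : ℝ) * σ.vec Y = l := fun _ => mult_y K σ.proj_vec
  have hx : ∀ (_ : Unit), ∃ l : ℤ, (σ.q : ℝ) * σ.vec X = l := fun _ => mult_x hq σ.proj_vec
  have hval : ∀ z, (∀ i, s3.map (s2.map (s1.map z)) (Sum.inl i) = z (Sum.inl i)) ∧
      s3.map (s2.map (s1.map z)) X = sector σ.q (z X) +
        ((frac (-(K • z Y)) / σ.q : ℝ) : UnitAddCircle) ∧
      dist (s3.map (s2.map (s1.map z)) Y) (z Y) ≤ 1 / K := by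
    intro z
    simp only [s1, s2, s3, shear1_map]
    refine ⟨fun i => by simp [X, Y], ?_, ?_⟩
    · simp only [Function.update_self, Function.update_of_ne hXY.symm, Function.update_of_ne hXY]
      have e : K • (z Y + g2 (σ.q • (z X + g1 (K • z Y)))) = σ.q • z X := by
        simp only [g1, g2, smul_add, smul_coe_div K hK, smul_coe_div σ.q hq, coe_frac]
        abel
      rw [e]
      simp only [g1, g3]
      nth_rewrite 1 [sector_split σ.q hq (z X)]
      abel
    · simp only [Function.update_self, Function.update_of_ne hXY.symm]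
      refine (dist_self_add_left _ _).trans_le ((norm_coe_le _).trans ?_)
      rw [abs_of_nonneg (div_nonneg (frac_mem _).1 (Nat.cast_nonneg _))]
      exact div_le_div_of_nonneg_right (frac_mem _).2.le (Nat.cast_nonneg _)
  refine ⟨s3.map ∘ s2.map ∘ s1.map, s3.preserves.comp (hp2.comp hp),
    Approximable.comp (fun _ _ => Comm.comp) (hp2.comp hp) s3.measurable_map
      (s3.approximable σ.vec hy)
      (Approximable.comp (fun _ _ => Comm.comp) hp s2.measurable_map (s2.approximable σ.vec hx)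
        (s1.approximable σ.vec hy)),
    fun z => funext fun o => ?_, hval⟩
  obtain ⟨h1, h2, -⟩ := hval z
  cases o with
  | none =>
    change sector σ.q _ = sector σ.q _
    rw [Function.comp_apply, Function.comp_apply, h2,
      sector_sector_add σ.q hq _ _ (frac_mem _).1 (frac_mem _).2]
  | some i => exact h1 i

/-- `L ∘ ψ` sends labels of the extension to labels of the stage, with vertical width `2/m` -/
def Renorm (σ : Stage d) (X : Ext σ) (m : ℕ) : Prop :=
  ∃ (L : TD (Ix d)) (ψ : Tor (Ix d) → Tor (Ix d)),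
    (∀ x y, L.f (x + y) = L.f x + L.f y) ∧
    L.map (proj (baseVec X.q X.β)) = proj (σ.vec + Pi.single (Sum.inr 1) X.v) ∧
    MeasurePreserving ψ volume volume ∧
    (∀ t, proj t = proj (baseVec X.q X.β) → Approximable (Comm t) ψ) ∧
    (∀ z, labCoord σ.q (L.map (ψ z)) = X.pull (labCoord X.q z)) ∧
    0 < m ∧ m • (X.v : UnitAddCircle) ∈ σ.grp ∧
    ∀ z z', labCoord X.q z = labCoord X.q z' →
      dist (L.map (ψ z) (Sum.inr 1)) (L.map (ψ z') (Sum.inr 1)) ≤ 2 / m

theorem TD.lin_map_apply {ι : Type} [Fintype ι] [DecidableEq ι] (M N : Matrix ι ι ℤ)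
    (h : M * N = 1) (h' : N * M = 1) (z : Tor ι) (i : ι) :
    (TD.lin M N h h').map z i = ∑ j, M i j • z j := rfl

theorem TD.lin_add {ι : Type} [Fintype ι] [DecidableEq ι] (M N : Matrix ι ι ℤ)
    (h : M * N = 1) (h' : N * M = 1) (x y : ι → ℝ) :
    (TD.lin M N h h').f (x + y) = (TD.lin M N h h').f x + (TD.lin M N h h').f y := by
  funext i
  simp [TD.lin, mul_add, Finset.sum_add_distrib]

/-- integer combinations of `β` and `1/q` on the circle -/
theorem coe_comb (n : Fin d → ℤ) (l : ℤ) (β : Fin d → ℝ) (q : ℕ) :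
    ((((∑ k, (n k : ℝ) * β k) + (l : ℝ) / q : ℝ)) : UnitAddCircle) =
      (∑ k, n k • (β k : UnitAddCircle)) + l • (((1 : ℝ) / q : ℝ) : UnitAddCircle) := by
  rw [QuotientAddGroup.mk_add]
  refine congrArg₂ (· + ·) ?_ ?_
  · simp only [← QuotientAddGroup.mk_zsmul, zsmul_eq_mul]
    exact map_sum (QuotientAddGroup.mk' (AddSubgroup.zmultiples (1 : ℝ))) _ _
  · rw [← QuotientAddGroup.mk_zsmul, zsmul_eq_mul, mul_one_div]

theorem Ext.eq_zero_of_comb {σ : Stage d} (X : Ext σ) (n : Fin d → ℤ) (l : ℤ)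
    (h : (∑ k, n k • (X.β k : UnitAddCircle)) + l • (((1 : ℝ) / X.q : ℝ) : UnitAddCircle) = 0) :
    n = 0 := by
  have hq : 0 < X.q := by rw [X.q_eq]; exact Nat.mul_pos σ.q_pos X.r_pos
  rw [← coe_comb, AddCircle.coe_eq_zero_iff] at h
  obtain ⟨j, hj⟩ := h
  simp only [zsmul_eq_mul, mul_one] at hj
  have hqr : (X.q : ℝ) ≠ 0 := by exact_mod_cast hq.ne'
  have h0 := X.indep (fun k => (X.q : ℤ) * n k) ((X.q : ℤ) * j - l) (by
    push_cast
    rw [Finset.sum_congr rfl (fun k _ => mul_assoc (X.q : ℝ) (n k : ℝ) (X.β k)), ← Finset.mul_sum,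
      hj, mul_add, mul_div_cancel₀ _ hqr]
    ring)
  funext k
  have := congrFun h0 k
  simpa [hq.ne'] using this

theorem Ext.old_circle {σ : Stage d} (X : Ext σ) (i : Fin d) :
    (σ.β i : UnitAddCircle) = (∑ k, X.A i k • (X.β k : UnitAddCircle)) +
      X.c i • (((1 : ℝ) / X.q : ℝ) : UnitAddCircle) := by
  rw [X.old_eq i, coe_comb]

theorem Ext.v_circle {σ : Stage d} (X : Ext σ) :
    (X.v : UnitAddCircle) = (∑ k, X.a k • (X.β k : UnitAddCircle)) +
      X.e • (((1 : ℝ) / X.q : ℝ) : UnitAddCircle) := by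
  rw [X.v_eq, coe_comb]

end

end Vale.Agent.P109.Spectral
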