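import Vale.Agent.P109.Spectral.Step.Conc

/-!
P109: renormalisation when the denominator is fixed.
-/

namespace Vale.Agent.P109.Spectral

open MeasureTheory Matrix

noncomputable section

variable {d : ℕ}

/-- a left invertible `(d+1) × d` matrix completes to an invertible one -/
theorem completion {κ : Type} [Fintype κ] [DecidableEq κ] (M : Matrix (Option κ) κ ℤ)
    (B : Matrix κ (Option κ) ℤ) (h : B * M = 1) :
    ∃ b ν : Option κ → ℤ, M * B + Matrix.vecMulVec b ν = 1 ∧ ν ᵥ* M = 0 ∧ ν ⬝ᵥ b = 1 := by
  classical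
  let K : Submodule ℤ (Option κ → ℤ) := LinearMap.ker B.mulVecLin
  have hBM : ∀ w, B *ᵥ (M *ᵥ w) = w := fun w => by rw [Matrix.mulVec_mulVec, h, Matrix.one_mulVec]
  have hmem : ∀ u, u - M *ᵥ (B *ᵥ u) ∈ K := fun u => by
    change B *ᵥ (u - M *ᵥ (B *ᵥ u)) = 0
    rw [Matrix.mulVec_sub, hBM, sub_self]
  let P : (Option κ → ℤ) →ₗ[ℤ] K :=
    LinearMap.codRestrict K (LinearMap.id - M.mulVecLin ∘ₗ B.mulVecLin) fun u => by
      simpa using hmem u
  let e : (Option κ → ℤ) ≃ₗ[ℤ] (κ → ℤ) × K :=
    LinearEquiv.ofLinearMap (LinearMap.prod B.mulVecLin P)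
      (LinearMap.coprod M.mulVecLin K.subtype)
      (by
        ext : 1
        · refine LinearMap.ext fun w => Prod.ext ?_ (Subtype.ext ?_)
          · simp [hBM]
          · simp [P, hBM]
        · refine LinearMap.ext fun k => Prod.ext ?_ (Subtype.ext ?_)
          · simp
          · simp [P])
      (by refine LinearMap.ext fun u => ?_; simp [P])
  have hrank : Module.finrank ℤ K = 1 := by
    have := e.finrank_eq
    rw [Module.finrank_prod, Module.finrank_pi, Module.finrank_pi, Fintype.card_option] at this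
    omega
  let bas := Module.finBasisOfFinrankEq ℤ K hrank
  let ν : Option κ → ℤ := fun j => bas.repr (P (Pi.single j 1)) 0
  let b : Option κ → ℤ := (bas 0 : K)
  have hP : ∀ j, ((P (Pi.single j 1) : K) : Option κ → ℤ) = ν j • b := fun j => by
    have := bas.sum_repr (P (Pi.single j 1))
    rw [Fin.sum_univ_one] at this
    exact (congrArg Subtype.val this).symm
  have hid : M * B + Matrix.vecMulVec b ν = 1 := by
    ext i j
    have h1 := congrFun (hP j) i
    simp only [P, LinearMap.codRestrict_apply, LinearMap.sub_apply, LinearMap.id_apply,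
      LinearMap.comp_apply, Matrix.mulVecLin_apply, Pi.sub_apply, Pi.smul_apply, smul_eq_mul,
      Matrix.mulVec_single_one] at h1
    rw [show (M *ᵥ B.col j) i = (M * B) i j from rfl] at h1
    rw [Matrix.add_apply, Matrix.vecMulVec_apply, Matrix.one_apply]
    rw [Pi.single_apply] at h1
    linarith
  have hb : B *ᵥ b = 0 := (bas 0 : K).2
  have hb0 : b ≠ 0 := fun hb' => bas.ne_zero 0 (Subtype.ext hb')
  obtain ⟨i0, hi0⟩ := Function.ne_iff.mp hb0
  refine ⟨b, ν, hid, ?_, ?_⟩
  · have h1 := congrArg (fun Z => Z * M) hid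
    rw [Matrix.add_mul, Matrix.one_mul, Matrix.mul_assoc, h, Matrix.mul_one, add_eq_left,
      Matrix.vecMulVec_mul] at h1
    funext k
    have := congrFun (congrFun h1 i0) k
    simp only [Matrix.vecMulVec_apply, Matrix.zero_apply, mul_eq_zero] at this
    exact this.resolve_left hi0
  · have h1 := congrArg (fun Z => Z *ᵥ b) hid
    simp only [Matrix.add_mulVec, ← Matrix.mulVec_mulVec, hb, Matrix.mulVec_zero, zero_add,
      Matrix.one_mulVec] at h1
    have h2 := congrFun h1 i0
    simp only [Matrix.mulVec, Matrix.vecMulVec_apply, dotProduct, mul_assoc, ← Finset.mul_sum] at h2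
    exact mul_left_cancel₀ hi0 (by rw [mul_one]; exact h2)

theorem split_smul {κ : Type} [Fintype κ] [DecidableEq κ] (M : Matrix (Option κ) κ ℤ)
    (B : Matrix κ (Option κ) ℤ) (b ν : Option κ → ℤ) (h : M * B + Matrix.vecMulVec b ν = 1)
    {G : Type*} [AddCommGroup G] (u : Option κ → G) (i : Option κ) :
    (∑ k, M i k • ∑ j, B k j • u j) + b i • ∑ j, ν j • u j = u i := by
  have hj : ∀ j, (∑ k, M i k * B k j) + b i * ν j = if i = j then 1 else 0 := fun j => by
    simpa [Matrix.mul_apply, Matrix.vecMulVec_apply, Matrix.one_apply] using congrFun (congrFun h i) j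
  simp only [Finset.smul_sum, smul_smul]
  rw [Finset.sum_comm, ← Finset.sum_add_distrib]
  simp only [← Finset.sum_smul, ← add_smul, hj, ite_smul, one_smul, zero_smul, Finset.sum_ite_eq,
    Finset.mem_univ, if_true]

/-- rows of `L` for a fixed denominator: `M` completed by `b`, with `ce` in the sector column -/
def matB (M : Matrix (Option (Fin d)) (Fin d) ℤ) (ce b : Option (Fin d) → ℤ) :
    Matrix (Ix d) (Ix d) ℤ :=
  Matrix.fromBlocks (Matrix.of fun i k => M (some i) k)
    (Matrix.of fun i => ![ce (some i), b (some i)])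
    (Matrix.of fun (l : Fin 2) k => (![0, M none k] : Fin 2 → ℤ) l) !![1, 0; ce none, b none]

/-- rows of the inverse of `L` -/
def matB' (B : Matrix (Fin d) (Option (Fin d)) ℤ) (ce ν : Option (Fin d) → ℤ) :
    Matrix (Ix d) (Ix d) ℤ :=
  Matrix.fromBlocks (Matrix.of fun k i => B k (some i))
    (Matrix.of fun k => ![-(∑ o, B k o * ce o), B k none])
    (Matrix.of fun (l : Fin 2) i => (![0, ν (some i)] : Fin 2 → ℤ) l)
    !![1, 0; -(∑ o, ν o * ce o), ν none]

theorem matB_mul (M : Matrix (Option (Fin d)) (Fin d) ℤ) (B : Matrix (Fin d) (Option (Fin d)) ℤ)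
    (ce b ν : Option (Fin d) → ℤ) (h : M * B + Matrix.vecMulVec b ν = 1) :
    matB M ce b * matB' B ce ν = 1 := by
  have hone : ∀ i j : Option (Fin d),
      (∑ k, M i k * B k j) + b i * ν j = if i = j then 1 else 0 := fun i j => by
    simpa [Matrix.mul_apply, Matrix.vecMulVec_apply, Matrix.one_apply] using congrFun (congrFun h i) j
  have hce : ∀ i, (∑ k, M i k * ∑ o, B k o * ce o) + b i * ∑ o, ν o * ce o = ce i := fun i => by
    simpa [smul_eq_mul] using split_smul M B b ν h ce i
  ext i j
  rcases i with i | i <;> rcases j with j | j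
  · simpa [matB, matB', Matrix.mul_apply, Fintype.sum_sum_type, Fin.sum_univ_two, Matrix.one_apply,
      Option.some_inj] using hone (some i) (some j)
  · fin_cases j
    · simp only [matB, matB', Matrix.mul_apply, Fintype.sum_sum_type, Fin.sum_univ_two,
        Matrix.one_apply]
      simp [-Fintype.sum_option, mul_neg, Finset.sum_neg_distrib]
      linarith [hce (some i)]
    · simpa [matB, matB', Matrix.mul_apply, Fintype.sum_sum_type, Fin.sum_univ_two,
        Matrix.one_apply] using hone (some i) none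
  · fin_cases i
    · simp [matB, matB', Matrix.mul_apply, Fintype.sum_sum_type, Fin.sum_univ_two]
    · simpa [matB, matB', Matrix.mul_apply, Fintype.sum_sum_type, Fin.sum_univ_two,
        Matrix.one_apply] using hone none (some j)
  · fin_cases i <;> fin_cases j
    · simp [matB, matB', Matrix.mul_apply, Fintype.sum_sum_type, Fin.sum_univ_two]
    · simp [matB, matB', Matrix.mul_apply, Fintype.sum_sum_type, Fin.sum_univ_two]
    · simp only [matB, matB', Matrix.mul_apply, Fintype.sum_sum_type, Fin.sum_univ_two,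
        Matrix.one_apply]
      simp [-Fintype.sum_option, mul_neg, Finset.sum_neg_distrib]
      linarith [hce none]
    · simpa [matB, matB', Matrix.mul_apply, Fintype.sum_sum_type, Fin.sum_univ_two,
        Matrix.one_apply] using hone none none

/-- the rows `(A; a)` of an extension with the same denominator generate `ℤ^d` -/
theorem Ext.exists_left_inv {σ : Stage d} (X : Ext σ) (hr : X.r = 1) :
    ∃ B : Matrix (Fin d) (Option (Fin d)) ℤ,
      B * Matrix.of (fun (o : Option (Fin d)) k => o.elim (X.a k) (X.A · k)) = 1 := by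
  have hqq : X.q = σ.q := by rw [X.q_eq, hr, mul_one]
  let Φ : (Fin d → ℤ) × ℤ →+ UnitAddCircle :=
    { toFun := fun p => (∑ k, p.1 k • (X.β k : UnitAddCircle)) +
        p.2 • (((1 : ℝ) / X.q : ℝ) : UnitAddCircle)
      map_zero' := by simp
      map_add' := fun p p' => by simp [add_smul, Finset.sum_add_distrib]; abel }
  let R : (Fin d → ℤ) × ℤ × ℤ →+ (Fin d → ℤ) × ℤ :=
    { toFun := fun p => ((∑ i, p.1 i • X.A i) + p.2.2 • X.a,
        (∑ i, p.1 i * X.c i) + p.2.1 + p.2.2 * X.e)
      map_zero' := by simp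
      map_add' := fun p p' => by
        simp [add_smul, add_mul, Finset.sum_add_distrib]
        constructor <;> abel }
  have hle : σ.grp ⊔ AddSubgroup.zmultiples (X.v : UnitAddCircle) ≤ (Φ.comp R).range := by
    refine sup_le ((AddSubgroup.closure_le _).mpr ?_) (AddSubgroup.zmultiples_le.mpr ?_)
    · rintro x (⟨i, rfl⟩ | hx)
      · refine ⟨(Pi.single i 1, 0, 0), ?_⟩
        simp [Φ, R, X.old_circle i, Pi.single_apply, ite_mul]
      · rw [Set.mem_singleton_iff] at hx
        subst hx
        exact ⟨(0, 1, 0), by simp [Φ, R, hqq]⟩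
    · exact ⟨(0, 0, 1), by simp [Φ, R, X.v_circle]⟩
  have hk : ∀ k : Fin d, ∃ p, (R p).1 = Pi.single k 1 := by
    intro k
    obtain ⟨p, hp⟩ := hle (X.generated (AddSubgroup.subset_closure (Or.inl ⟨k, rfl⟩)))
    refine ⟨p, sub_eq_zero.mp (X.eq_zero_of_comb _ (R p).2 ?_)⟩
    have hp' : Φ (R p) = (X.β k : UnitAddCircle) := hp
    simp only [Φ, AddMonoidHom.coe_mk, ZeroHom.coe_mk] at hp'
    simp only [Pi.sub_apply, sub_smul, Finset.sum_sub_distrib, Pi.single_apply, ite_smul, one_smul,
      zero_smul, Finset.sum_ite_eq', Finset.mem_univ, if_true]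
    rw [sub_add_eq_add_sub, sub_eq_zero]
    exact hp'
  choose p hp using hk
  refine ⟨Matrix.of fun k o => o.elim (p k).2.2 (p k).1, ?_⟩
  ext k l
  have := congrFun (hp k) l
  simp only [R, AddMonoidHom.coe_mk, ZeroHom.coe_mk] at this
  simp [Matrix.mul_apply, Fintype.sum_option, Matrix.one_apply, Pi.single_apply, eq_comm] at this ⊢
  linarith

/-- translation of the rotation coordinates by a function of `(q x, y)` -/
def shiftRot (q : ℕ) (f : (Fin 2 → UnitAddCircle) → Fin d → UnitAddCircle) (S : Finset (Fin d))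
    (z : Tor (Ix d)) : Tor (Ix d) := fun i =>
  i.elim (fun k => if k ∈ S then z (Sum.inl k) + f ![q • z (Sum.inr 0), z (Sum.inr 1)] k
    else z (Sum.inl k)) fun l => z (Sum.inr l)

theorem shiftRot_spec {q : ℕ} (hq : 0 < q) {f : (Fin 2 → UnitAddCircle) → Fin d → UnitAddCircle}
    (hf : Measurable f) (S : Finset (Fin d)) :
    MeasurePreserving (shiftRot q f S) volume volume ∧
      ∀ t : Ix d → ℝ, (∃ l : ℤ, (q : ℝ) * t (Sum.inr 0) = l) →
        (∃ l : ℤ, ((1 : ℕ) : ℝ) * t (Sum.inr 1) = l) → Approximable (Comm t) (shiftRot q f S) := by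
  induction S using Finset.induction with
  | empty =>
    have e : shiftRot q f (∅ : Finset (Fin d)) = id := by
      funext z i
      cases i <;> simp [shiftRot]
    rw [e]
    exact ⟨MeasurePreserving.id _, fun t _ _ => Approximable.of_map (D := TD.one) fun x => rfl⟩
  | @insert k S hk ih =>
    let s : Shear (Ix d) :=
      { κ := Fin 2
        fin := inferInstance
        i0 := Sum.inl k
        c := Sum.inr
        inj := Sum.inr_injective
        ne := fun l => by simp
        n := ![q, 1]
        n_pos := fun l => by fin_cases l <;> simp [hq]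
        h := fun w => f w k
        measurable_h := (measurable_pi_apply k).comp hf }
    have e : shiftRot q f (insert k S) = s.map ∘ shiftRot q f S := by
      funext z i
      have harg : s.arg (shiftRot q f S z) = ![q • z (Sum.inr 0), z (Sum.inr 1)] := by
        funext l
        fin_cases l <;> simp [Shear.arg, shiftRot, s]
      by_cases hi : i = Sum.inl k
      · subst hi
        rw [Function.comp_apply]
        refine Eq.trans ?_ (s.map_apply_self _).symm
        rw [harg]
        simp [shiftRot, s, hk]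
      · rw [Function.comp_apply, s.map_apply_ne _ hi]
        cases i with
        | inl l =>
          have hlk : l ≠ k := fun h => hi (h ▸ rfl)
          simp [shiftRot, hlk]
        | inr l => rfl
    rw [e]
    refine ⟨s.preserves.comp ih.1, fun t hx hy => Approximable.comp (fun _ _ => Comm.comp) ih.1
      s.measurable_map (s.approximable t fun l => ?_) (ih.2 t hx hy)⟩
    fin_cases l
    · simpa [s] using hx
    · simpa [s] using hy

theorem renormB (σ : Stage d) (X : Ext σ) (hr : X.r = 1) : ∃ m, Renorm σ X m := by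
  classical
  have hqq : X.q = σ.q := by rw [X.q_eq, hr, mul_one]
  have hQ : 0 < X.q := by rw [hqq]; exact σ.q_pos
  let M : Matrix (Option (Fin d)) (Fin d) ℤ :=
    Matrix.of fun o k => o.elim (X.a k) (X.A · k)
  obtain ⟨B, hB⟩ := X.exists_left_inv hr
  obtain ⟨b, ν, hid, hνM, hνb⟩ := completion M B hB
  have hνk : ∀ k, (∑ i, ν (some i) * X.A i k) + ν none * X.a k = 0 := fun k => by
    have := congrFun hνM k
    simp [Matrix.vecMul, dotProduct, Fintype.sum_option, M] at this
    linarith
  let u0 : UnitAddCircle := (((1 : ℝ) / X.q : ℝ) : UnitAddCircle)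
  have hrel : (∑ i, ν (some i) • (σ.β i : UnitAddCircle)) + ν none • (X.v : UnitAddCircle) =
      ((∑ i, ν (some i) * X.c i) + ν none * X.e) • u0 := by
    simp only [X.old_circle, X.v_circle, smul_add, Finset.smul_sum, smul_smul,
      Finset.sum_add_distrib, add_smul, Finset.sum_smul]
    rw [Finset.sum_comm, add_add_add_comm, ← Finset.sum_add_distrib,
      Finset.sum_eq_zero fun k _ => ?_, zero_add]
    rw [← Finset.sum_smul, ← add_smul, hνk, zero_smul]
  have hν0 : ν none ≠ 0 := by
    intro h0
    rw [h0, zero_mul, zero_smul, add_zero, add_zero] at hrel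
    have hcomb : ((((∑ i, (ν (some i) : ℝ) * σ.β i) + ((-∑ i, ν (some i) * X.c i : ℤ) : ℝ) / X.q : ℝ))
        : UnitAddCircle) = 0 := by
      rw [coe_comb, hrel, neg_smul, add_neg_cancel]
    obtain ⟨j, hj⟩ := (AddCircle.coe_eq_zero_iff 1).mp hcomb
    simp only [zsmul_eq_mul, mul_one] at hj
    have hqR : (X.q : ℝ) ≠ 0 := by exact_mod_cast hQ.ne'
    have hν := σ.indep (fun i => (X.q : ℤ) * ν (some i))
      ((X.q : ℤ) * j + ∑ i, ν (some i) * X.c i) (by
      push_cast at hj ⊢
      rw [Finset.sum_congr rfl fun i _ => mul_assoc (X.q : ℝ) (ν (some i) : ℝ) (σ.β i),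
        ← Finset.mul_sum, hj, mul_add, mul_div_cancel₀ _ hqR]
      ring)
    refine one_ne_zero (α := ℤ) (hνb.symm.trans ?_)
    have hν' : ∀ i, ν (some i) = 0 := fun i => by simpa [hQ.ne'] using congrFun hν i
    simp [dotProduct, Fintype.sum_option, h0, hν']
  have hνR : ((ν none : ℤ) : ℝ) ≠ 0 := by exact_mod_cast hν0
  have hm : ((ν none).natAbs : ℝ) = |(ν none : ℝ)| := by
    rw [Nat.cast_natAbs, Int.cast_abs]
  let ce : Option (Fin d) → ℤ := fun o => o.elim X.e X.c
  let L : TD (Ix d) := TD.lin (matB M ce b) (matB' B ce ν) (matB_mul M B ce b ν hid)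
    (mul_eq_one_comm.mp (matB_mul M B ce b ν hid))
  have hLl : ∀ z i, L.map z (Sum.inl i) = (∑ k, X.A i k • z (Sum.inl k)) +
      (X.c i • z (Sum.inr 0) + b (some i) • z (Sum.inr 1)) := fun z i => by
    simp [L, TD.lin_map_apply, matB, M, ce, Fintype.sum_sum_type, Fin.sum_univ_two]
  have hLx : ∀ z, L.map z (Sum.inr 0) = z (Sum.inr 0) := fun z => by
    simp [L, TD.lin_map_apply, matB, Fintype.sum_sum_type, Fin.sum_univ_two]
  have hLy : ∀ z, L.map z (Sum.inr 1) = (∑ k, X.a k • z (Sum.inl k)) +
      (X.e • z (Sum.inr 0) + b none • z (Sum.inr 1)) := fun z => by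
    simp [L, TD.lin_map_apply, matB, M, ce, Fintype.sum_sum_type, Fin.sum_univ_two]
  let xi : (Fin 2 → UnitAddCircle) → UnitAddCircle :=
    fun w => ((frac (w 0) / X.q : ℝ) : UnitAddCircle)
  let η : (Fin 2 → UnitAddCircle) → UnitAddCircle := fun w =>
    ((frac (w 1 + (∑ o, ν o * ce o) • xi w) / (ν none : ℝ) : ℝ) : UnitAddCircle)
  let u : (Fin 2 → UnitAddCircle) → Option (Fin d) → UnitAddCircle := fun w o =>
    o.elim (η w) (fun _ => 0) - ce o • xi w
  let f : (Fin 2 → UnitAddCircle) → Fin d → UnitAddCircle := fun w k => ∑ o, B k o • u w o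
  have hxi : Measurable xi :=
    measurable_coe.comp ((measurable_frac.comp (measurable_pi_apply 0)).div_const _)
  have hzs : ∀ n : ℤ, Measurable fun a : UnitAddCircle => n • a :=
    fun n => (continuous_id.zsmul n).measurable
  have hη : Measurable η := measurable_coe.comp ((measurable_frac.comp
    ((measurable_pi_apply (1 : Fin 2)).add
      ((hzs (∑ o, ν o * ce o)).comp hxi))).div_const ((ν none : ℤ) : ℝ))
  have hf : Measurable f := measurable_pi_iff.mpr fun k => Finset.measurable_sum _ fun o _ => by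
    refine (hzs _).comp ?_
    cases o with
    | none => exact hη.sub ((hzs _).comp hxi)
    | some i => exact measurable_const.sub ((hzs _).comp hxi)
  have hηm : ∀ w, η w = ((frac (w 1 + (∑ o, ν o * ce o) • xi w) / (ν none : ℝ) : ℝ) : UnitAddCircle)
      ∧ ν none • η w = w 1 + (∑ o, ν o * ce o) • xi w := fun w => ⟨rfl, by
    rw [← QuotientAddGroup.mk_zsmul, zsmul_eq_mul, mul_div_cancel₀ _ hνR, coe_frac]⟩
  have hfu : ∀ w o, (∑ k, M o k • f w k) + b o • w 1 = u w o := by
    intro w o
    have hν1 : ∑ o, ν o • u w o = w 1 := by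
      simp only [u, smul_sub, Finset.sum_sub_distrib, smul_smul, ← Finset.sum_smul]
      simp only [Fintype.sum_option, Option.elim_none, Option.elim_some, smul_zero,
        Finset.sum_const_zero, add_zero]
      rw [(hηm w).2, Fintype.sum_option]
      abel
    have := split_smul M B b ν hid (u w) o
    rwa [hν1] at this
  let ψ := shiftRot X.q f (Finset.univ : Finset (Fin d))
  obtain ⟨hψ1, hψ2⟩ := shiftRot_spec hQ hf (Finset.univ : Finset (Fin d))
  let arg : Tor (Ix d) → Fin 2 → UnitAddCircle :=
    fun z => ![X.q • z (Sum.inr 0), z (Sum.inr 1)]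
  have hxs : ∀ z, z (Sum.inr 0) = sector X.q (z (Sum.inr 0)) + xi (arg z) := fun z =>
    sector_split X.q hQ _
  have hwl : ∀ z i, L.map (ψ z) (Sum.inl i) =
      (∑ k, X.A i k • z (Sum.inl k)) + X.c i • sector X.q (z (Sum.inr 0)) := by
    intro z i
    have h1 : (∑ k, X.A i k • f (arg z) k) + b (some i) • z (Sum.inr 1) =
        0 - X.c i • xi (arg z) := hfu (arg z) (some i)
    rw [hLl]
    simp only [ψ, shiftRot, Sum.elim_inl, Sum.elim_inr, Finset.mem_univ, if_true, smul_add,
      Finset.sum_add_distrib]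
    change _ + ∑ k, X.A i k • f (arg z) k + _ = _
    nth_rewrite 1 [hxs z]
    rw [smul_add, eq_sub_of_add_eq h1]
    abel
  have hwy : ∀ z, L.map (ψ z) (Sum.inr 1) =
      (∑ k, X.a k • z (Sum.inl k)) + X.e • sector X.q (z (Sum.inr 0)) + η (arg z) := by
    intro z
    have h1 : (∑ k, X.a k • f (arg z) k) + b none • z (Sum.inr 1) =
        η (arg z) - X.e • xi (arg z) := hfu (arg z) none
    rw [hLy]
    simp only [ψ, shiftRot, Sum.elim_inl, Sum.elim_inr, Finset.mem_univ, if_true, smul_add,
      Finset.sum_add_distrib]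
    change _ + ∑ k, X.a k • f (arg z) k + _ = _
    nth_rewrite 1 [hxs z]
    rw [smul_add, eq_sub_of_add_eq h1]
    abel
  refine ⟨(ν none).natAbs, L, ψ, TD.lin_add _ _ _ _, ?_, hψ1,
    fun t ht => hψ2 t (mult_x hQ ht) (mult_y 1 ht), fun z => funext fun o => ?_,
    Int.natAbs_pos.mpr hν0, ?_, fun z z' hzz => ?_⟩
  · funext i
    rw [proj_add, Pi.add_apply, congrFun σ.proj_vec]
    rcases i with i | i
    · rw [hLl]
      simp [proj, baseVec, X.old_circle i]
    · fin_cases i
      · change L.map _ (Sum.inr 0) = _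
        rw [hLx]
        simp [proj, baseVec, hqq]
      · change L.map _ (Sum.inr 1) = _
        rw [hLy]
        simp [proj, baseVec, X.v_circle]
  · cases o with
    | none =>
      change sector σ.q (L.map (ψ z) (Sum.inr 0)) = X.r • sector X.q (z (Sum.inr 0))
      rw [hLx, hr, one_smul, hqq]
      rfl
    | some i => exact hwl z i
  · have hmem : ν none • (X.v : UnitAddCircle) ∈ σ.grp := by
      rw [eq_sub_of_add_eq' hrel]
      refine sub_mem (zsmul_mem ?_ _) (sum_mem fun i _ => zsmul_mem ?_ _)
      · simp only [u0, hqq]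
        exact AddSubgroup.subset_closure (Or.inr rfl)
      · exact AddSubgroup.subset_closure (Or.inl ⟨i, rfl⟩)
    rw [← natCast_zsmul]
    rcases Int.natAbs_eq (ν none) with h | h
    · rwa [← h]
    · rw [show ((ν none).natAbs : ℤ) = -ν none by omega, neg_smul]
      exact neg_mem hmem
  · have hl : ∀ i, z (Sum.inl i) = z' (Sum.inl i) := fun i => congrFun hzz (some i)
    have hs : sector X.q (z (Sum.inr 0)) = sector X.q (z' (Sum.inr 0)) := congrFun hzz none
    rw [hwy, hwy, hs, Finset.sum_congr rfl fun k _ => by rw [hl k], dist_add_left,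
      (hηm _).1, (hηm _).1, hm]
    refine (dist_coe_le _ _).trans ?_
    rw [← sub_div, abs_div]
    refine div_le_div_of_nonneg_right (abs_le.mpr ?_) (abs_nonneg _)
    constructor <;>
      linarith [(frac_mem (arg z 1 + (∑ o, ν o * ce o) • xi (arg z))).1,
        (frac_mem (arg z 1 + (∑ o, ν o * ce o) • xi (arg z))).2,
        (frac_mem (arg z' 1 + (∑ o, ν o * ce o) • xi (arg z'))).1,
        (frac_mem (arg z' 1 + (∑ o, ν o * ce o) • xi (arg z'))).2]

end

end Vale.Agent.P109.Spectral
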