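import Vale.Agent.P109.Spectral.Step.TypeA
import Vale.Agent.P109.Spectral.Step.TypeB
import Vale.Agent.P109.Spectral.Analysis.Conj

/-!
P109: one step of the approximation by conjugation.
-/

namespace Vale.Agent.P109.Spectral

open MeasureTheory

noncomputable section

variable {d : ℕ}

theorem Comm.apply_g {ι : Type} [Fintype ι] {t : ι → ℝ} {D : TD ι} (h : Comm t D) (w : ι → ℝ) :
    D.g (w + t) = D.g w + t := by
  have h1 := congrArg D.g (h (D.g w))
  rw [D.fg, D.gf] at h1
  exact h1.symm

/-- conjugating with one more map commuting with the translation changes nothing -/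
theorem IsConjRot.comp_comm {ι : Type} [Fintype ι] {H D S : TD ι} {t : ι → ℝ} (hD : Comm t D) :
    IsConjRot (H.comp D) t S ↔ IsConjRot H t S := by
  have e1 : ∀ x, (H.comp D).f ((H.comp D).g x + t) = H.f (H.g x + t) := fun x => by
    simp only [TD.comp, Function.comp_apply, hD (D.g (H.g x)), D.fg]
  have e2 : ∀ x, (H.comp D).f ((H.comp D).g x - t) = H.f (H.g x - t) := fun x => by
    have h := hD (D.g (H.g x) - t)
    rw [sub_add_cancel, D.fg] at h
    simp only [TD.comp, Function.comp_apply]
    rw [eq_sub_of_add_eq h.symm]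
  unfold IsConjRot
  simp only [e1, e2]

/-- conjugating by an additive map turns the translation by `t` into that by `L t` -/
theorem IsConjRot.comp_lin {ι : Type} [Fintype ι] {H L S : TD ι} {t : ι → ℝ}
    (hL : ∀ x y, L.f (x + y) = L.f x + L.f y) :
    IsConjRot (H.comp L) t S ↔ IsConjRot H (L.f t) S := by
  have e1 : ∀ x, (H.comp L).f ((H.comp L).g x + t) = H.f (H.g x + L.f t) := fun x => by
    simp only [TD.comp, Function.comp_apply, hL, L.fg]
  have e2 : ∀ x, (H.comp L).f ((H.comp L).g x - t) = H.f (H.g x - L.f t) := fun x => by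
    have h := hL (L.g (H.g x) - t) t
    rw [sub_add_cancel, L.fg] at h
    simp only [TD.comp, Function.comp_apply]
    rw [eq_sub_of_add_eq h.symm]
  unfold IsConjRot
  simp only [e1, e2]

theorem MClose.trans' {α β : Type*} [MeasurableSpace α] [PseudoMetricSpace β] {μ : Measure α}
    {ε : ℝ} {f g f' g' : α → β} (h : MClose μ ε f g) (hf : f' = f) (hg : g' = g) :
    MClose μ ε f' g' := by
  subst hf hg
  exact h

theorem measurable_pull {σ : Stage d} (X : Ext σ) : Measurable X.pull := by
  refine measurable_pi_iff.mpr fun o => ?_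
  cases o with
  | none => exact ((continuous_apply (none : Option (Fin d))).nsmul X.r).measurable
  | some i =>
    exact (Continuous.add (continuous_finsetSum _ fun k _ => (continuous_apply (some k)).zsmul _)
      ((continuous_apply (none : Option (Fin d))).zsmul _)).measurable

theorem measurable_stage_lab (σ : Stage d) : Measurable σ.lab :=
  (measurable_labCoord σ.q).comp σ.H.map.symm.continuous.measurable

theorem renorm_exists (σ : Stage d) (X : Ext σ) : ∃ m, Renorm σ X m := by
  rcases X.kind with hr | ⟨hβ, hv⟩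
  · exact renormB σ X hr
  · exact ⟨X.r, renormA σ X hβ hv⟩

/-- moving a positive band position by less than its distance to the cut -/
theorem abs_frac_neg_sub_le {K : ℕ} {y c : UnitAddCircle} {s : ℝ} (hyc : dist y c ≤ s)
    (hy : (K : ℝ) * s < ‖K • y‖) :
    |frac (-(K • y)) - frac (-(K • c))| ≤ K * s := by
  obtain ⟨t, ht⟩ : ∃ t : ℝ, (t : UnitAddCircle) = y - c ∧ |t| = ‖y - c‖ := by
    refine ⟨frac (y - c) - round (frac (y - c)), ?_, ?_⟩
    · rw [QuotientAddGroup.mk_sub, coe_frac, coe_int, sub_zero]
    · conv_rhs => rw [← coe_frac (y - c), UnitAddCircle.norm_eq]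
  have hKt : |(K : ℝ) * t| ≤ K * s := by
    rw [abs_mul, Nat.abs_cast, ht.2, ← dist_eq_norm]
    exact mul_le_mul_of_nonneg_left hyc (Nat.cast_nonneg K)
  let a := frac (-(K • y))
  have ha : ‖K • y‖ ≤ a ∧ ‖K • y‖ ≤ 1 - a := by
    rw [← norm_neg (K • y), ← coe_frac (-(K • y)), UnitAddCircle.norm_eq]
    have h0 := round_le a 0
    have h1 := round_le a 1
    simp only [Int.cast_zero, sub_zero, Int.cast_one] at h0 h1
    rw [abs_of_nonneg (frac_mem _).1] at h0
    rw [abs_of_nonpos (show a - 1 ≤ 0 by linarith [(frac_mem (-(K • y))).2])] at h1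
    exact ⟨h0, h1.trans_eq (neg_sub a 1)⟩
  have he : -(K • c) = ((a + K * t : ℝ) : UnitAddCircle) := by
    rw [QuotientAddGroup.mk_add, coe_frac, ← nsmul_eq_mul, QuotientAddGroup.mk_nsmul, ht.1, smul_sub]
    abel
  have hb := abs_le.mp hKt
  rw [he, frac_coe, Int.fract_eq_self.mpr ⟨by linarith [ha.1], by linarith [ha.2]⟩]
  simpa [a] using hKt

theorem stepSpec : StepSpec := by
  intro d σ j ε hε
  -- accuracy near the image of `σ.H`
  obtain ⟨η, hη, hH⟩ := Metric.uniformContinuous_iff.mp
    (CompactSpace.uniformContinuous_of_continuous σ.H.map.continuous) (ε / 2) (by positivity)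
  set e := min (η / 4) (ε / 8) with he
  have he0 : 0 < e := by positivity
  obtain ⟨K, hK⟩ := exists_nat_gt (2 / e)
  have hK0' : (0 : ℝ) < K := lt_trans (by positivity) hK
  have hK0 : 0 < K := by exact_mod_cast hK0'
  obtain ⟨M, hM⟩ := exists_nat_gt (4 * K / e)
  have hM0 : (0 : ℝ) < M := lt_trans (by positivity) hM
  -- the concentrator
  obtain ⟨h0, hh0, hh0a, hh0lab, hh0v⟩ := exists_conc σ K hK0
  obtain ⟨δh, hδh, hhpost⟩ :=
    mclose_postcomp (labCoord (d := d) σ.q) (measurable_labCoord σ.q) hh0 (ε / 4) (by positivity)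
  obtain ⟨h, hhc, hhm⟩ := hh0a (min δh e) (by positivity)
  obtain ⟨δ, hδ, hconj⟩ := conjSpec.2 (Ix d) (σ.H.comp h) σ.vec j ε hε
  refine ⟨δ, hδ, M, fun X hXv => ?_⟩
  obtain ⟨m, L, ψ0, hLadd, hLbase, hψ0, hψ0a, hlab, hm0, hmem, hwidth⟩ := renorm_exists σ X
  set u : Ix d → ℝ := σ.vec + Pi.single (Sum.inr 1) X.v with hu
  set t : Ix d → ℝ := L.g u with ht
  have htb : proj t = proj (baseVec X.q X.β) := by
    apply L.map.injective
    rw [hLbase, L.map_proj, ht, L.fg]
  obtain ⟨k, hk⟩ := exists_intVec_of_proj_eq htb
  -- smoothing of `ψ`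
  obtain ⟨δ1, hδ1, hpost1⟩ := mclose_postcomp (labCoord σ.q ∘ L.map)
    ((measurable_labCoord σ.q).comp L.map.continuous.measurable) hψ0 (ε / 4) (by positivity)
  obtain ⟨δ2, hδ2, hpost2⟩ := mclose_postcomp (h0 ∘ L.map)
    (hh0.measurable.comp L.map.continuous.measurable) hψ0 e he0
  obtain ⟨ψ, hψc, hψm⟩ := hψ0a t htb (min δ1 δ2) (by positivity)
  let τ : Stage d :=
    { q := X.q
      q_pos := by rw [X.q_eq]; exact Nat.mul_pos σ.q_pos X.r_pos
      β := X.β
      indep := X.indep
      k := k
      H := ((σ.H.comp h).comp L).comp ψ }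
  have hτvec : τ.vec = t := hk.symm
  have hΦ : MeasurePreserving τ.H.map volume volume := τ.H.preserves
  have hΦs : MeasurePreserving τ.H.map.symm volume volume :=
    MeasurePreserving.symm τ.H.map.toMeasurableEquiv τ.H.preserves
  have hLψ : MeasurePreserving (L.map ∘ ψ.map) volume volume := L.preserves.comp ψ.preserves
  have hτmap : ∀ z, τ.H.map z = σ.H.map (h.map (L.map (ψ.map z))) := fun z => rfl
  refine ⟨τ, rfl, rfl, fun S T hS hT => ?_, ?_, fun hord => ?_⟩
  · -- closeness of the diffeomorphisms
    have hS' : IsConjRot (σ.H.comp h) u S := by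
      rw [show u = L.f t from (L.fg u).symm, ← IsConjRot.comp_lin hLadd,
        ← IsConjRot.comp_comm hψc]
      simpa [hτvec] using hS
    refine hconj u S T ?_ hS' ((IsConjRot.comp_comm hhc).mpr hT)
    rw [hu, add_sub_cancel_left, Pi.norm_single, Real.norm_eq_abs]
    exact hXv
  · -- labels
    have h1 : MClose volume (ε / 4) (labCoord σ.q ∘ h.map) (labCoord σ.q) := by
      have := hhpost h.map h.preserves (hhm.mono (min_le_left _ _))
      rwa [show labCoord σ.q ∘ h0 = labCoord σ.q from funext hh0lab] at this
    have h2 : MClose volume (ε / 4) (labCoord σ.q ∘ L.map ∘ ψ.map) (labCoord σ.q ∘ L.map ∘ ψ0) :=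
      hpost1 ψ.map ψ.preserves (hψm.mono (min_le_left _ _))
    have h3 := ((h1.comp hLψ).trans (by positivity) (by positivity) h2).comp hΦs
    refine (h3.symm.mono (by linarith : ε / 4 + ε / 4 ≤ ε)).trans' ?_ ?_
    · funext x
      simpa [Stage.lab, τ] using (hlab (τ.H.map.symm x)).symm
    · funext x
      change labCoord σ.q (σ.H.map.symm x) = labCoord σ.q (h.map (L.map (ψ.map (τ.H.map.symm x))))
      congr 1
      rw [σ.H.map.symm_apply_eq, ← hτmap, τ.H.map.apply_symm_apply]
  · -- recovery of the point
    have hmM : M ≤ m := not_lt.mp fun hlt => hord m hm0 hlt hmem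
    have hmR : (M : ℝ) ≤ m := by exact_mod_cast hmM
    have hm0' : (0 : ℝ) < m := by exact_mod_cast hm0
    let rep : Lab d → Tor (Ix d) := fun p i => i.elim (fun l => p (some l)) ![p none, 0]
    let G : Tor (Ix d) → Tor (Ix d) := fun w i => i.elim (fun l => w (Sum.inl l))
      ![sector σ.q (w (Sum.inr 0)) +
          ((frac (-(K • w (Sum.inr 1))) / σ.q : ℝ) : UnitAddCircle), w (Sum.inr 1)]
    let C : Lab d → Tor (Ix d) := fun p => σ.H.map (G (L.map (ψ0 (rep p))))
    have hrep : Measurable rep := measurable_pi_iff.mpr fun i => by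
      rcases i with l | l
      · exact measurable_pi_apply _
      · fin_cases l
        · exact measurable_pi_apply (none : Option (Fin d))
        · exact measurable_const
    have hKy : Measurable fun w : Tor (Ix d) => -(K • w (Sum.inr 1)) :=
      ((continuous_apply (Sum.inr 1 : Ix d)).nsmul K).neg.measurable
    have hKx : Measurable fun w : Tor (Ix d) =>
        ((frac (-(K • w (Sum.inr 1))) / σ.q : ℝ) : UnitAddCircle) :=
      measurable_coe.comp ((measurable_frac.comp hKy).div_const (σ.q : ℝ))
    have hG : Measurable G := measurable_pi_iff.mpr fun i => by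
      rcases i with l | l
      · exact measurable_pi_apply _
      · fin_cases l
        · exact ((measurable_sector σ.q).comp (measurable_pi_apply (Sum.inr 0 : Ix d))).add hKx
        · exact measurable_pi_apply _
    have hC : Measurable C := σ.H.map.continuous.measurable.comp
      (hG.comp (L.map.continuous.measurable.comp (hψ0.measurable.comp hrep)))
    obtain ⟨r, hr, hrC⟩ := exists_continuous_lab X.q τ.q_pos C hC (ε / 2) (by positivity)
    refine ⟨r, hr, ?_⟩
    have hrepz : ∀ z, labCoord X.q (rep (labCoord X.q z)) = labCoord X.q z := fun z => funext fun o => by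
      cases o with
      | none => exact sector_idem X.q τ.q_pos _
      | some l => rfl
    -- `h ∘ L ∘ ψ` is close to the centre of the label
    have hexact : MClose volume e (h0 ∘ L.map ∘ ψ0)
        (fun z => G (L.map (ψ0 (rep (labCoord X.q z))))) := by
      refine (measure_mono (t := (L.map ∘ ψ0) ⁻¹'
        {w | ‖K • w (Sum.inr 1)‖ ≤ 2 * K / m}) fun z hz => ?_).trans
        (((L.preserves.comp hψ0).measure_preimage
          (measurableSet_le ((continuous_apply (Sum.inr 1 : Ix d)).nsmul K).norm.measurable
            measurable_const).nullMeasurableSet).le.trans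
          ((measure_near_cut (Sum.inr 1) K hK0 _).trans (ENNReal.ofReal_le_ofReal ?_)))
      · by_contra hn
        simp only [Set.mem_preimage, Set.mem_ofPred_eq, Function.comp_apply, not_le] at hn hz
        refine absurd hz (not_lt.mpr ?_)
        set w := L.map (ψ0 z) with hw
        set w' := L.map (ψ0 (rep (labCoord X.q z))) with hw'
        have hll : labCoord σ.q w = labCoord σ.q w' := by rw [hw, hw', hlab, hlab, hrepz]
        have hd : dist (w (Sum.inr 1)) (w' (Sum.inr 1)) ≤ 2 / m := hwidth _ _ (hrepz z).symm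
        obtain ⟨v1, v2, v3⟩ := hh0v w
        have hMe : 4 * (K : ℝ) / m ≤ e := by
          rw [div_le_iff₀ hm0']
          rw [div_lt_iff₀ he0] at hM
          exact hM.le.trans (by nlinarith)
        have hK1 : (1 : ℝ) / K ≤ e / 2 := by
          rw [div_le_iff₀ hK0']
          rw [div_lt_iff₀ he0] at hK
          linarith
        have h2m : (2 : ℝ) / m ≤ e / 2 := by
          rw [div_le_iff₀ hm0']
          rw [div_le_iff₀ hm0'] at hMe
          have : (1 : ℝ) ≤ K := by exact_mod_cast hK0
          linarith
        refine (dist_pi_le_iff he0.le).mpr fun i => ?_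
        rcases i with l | l
        · change dist (h0 w (Sum.inl l)) (w' (Sum.inl l)) ≤ e
          rw [v1, show w (Sum.inl l) = w' (Sum.inl l) from congrFun hll (some l), dist_self]
          exact he0.le
        · fin_cases l
          · change dist (h0 w (Sum.inr 0)) (sector σ.q (w' (Sum.inr 0)) + _) ≤ e
            rw [v2, show sector σ.q (w (Sum.inr 0)) = sector σ.q (w' (Sum.inr 0)) from
              congrFun hll none, dist_add_left]
            refine (dist_coe_le _ _).trans ?_
            rw [← sub_div, abs_div, Nat.abs_cast]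
            refine ((div_le_self (abs_nonneg _) (by exact_mod_cast σ.q_pos)).trans
              (abs_frac_neg_sub_le hd ?_)).trans ?_
            · rwa [mul_div_assoc', mul_comm (K : ℝ) 2]
            · rw [mul_div_assoc', mul_comm (K : ℝ) 2]
              exact (div_le_div_of_nonneg_right (by linarith) hm0'.le).trans hMe
          · change dist (h0 w (Sum.inr 1)) (w' (Sum.inr 1)) ≤ e
            exact (dist_triangle _ _ _).trans ((add_le_add v3 hd).trans (by linarith))
      · calc 2 * (2 * (K : ℝ) / m) = 4 * K / m := by ring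
          _ ≤ e := by
            rw [div_le_iff₀ hm0']
            rw [div_lt_iff₀ he0] at hM
            exact hM.le.trans (by nlinarith)
    have hclose : MClose volume (3 * e) (h.map ∘ L.map ∘ ψ.map)
        (fun z => G (L.map (ψ0 (rep (labCoord X.q z))))) :=
      ((((hhm.mono (min_le_right _ _)).comp hLψ).trans he0.le he0.le
        (hpost2 ψ.map ψ.preserves (hψm.mono (min_le_right _ _)))).trans (by positivity) he0.le
          hexact).mono (by linarith)
    have hHclose : MClose volume (ε / 2) τ.H.map (fun z => C (labCoord X.q z)) := by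
      refine (measure_mono fun z (hz : ε / 2 < dist (τ.H.map z) (C (labCoord X.q z))) => ?_).trans
        (le_trans hclose (ENNReal.ofReal_le_ofReal ?_))
      · by_contra hn
        simp only [Set.mem_ofPred_eq, Function.comp_apply, not_lt] at hn
        refine absurd hz (not_lt.mpr ?_)
        rw [hτmap]
        exact (hH (lt_of_le_of_lt hn (by
          have := min_le_left (η / 4) (ε / 8)
          linarith [he]))).le
      · have := min_le_right (η / 4) (ε / 8)
        linarith [he]
    have hfin := ((hrC.trans (by positivity) (by positivity) hHclose.symm).comp hΦs).mono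
      (by linarith : ε / 2 + ε / 2 ≤ ε)
    exact hfin.trans' (funext fun x => rfl) (funext fun x => (τ.H.map.apply_symm_apply x).symm)

end

end Vale.Agent.P109.Spectral
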