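import Vale.Agent.P109.Spectral.Basic

/-!
P109: approximation in measure by smooth periodic functions and by continuous maps.
-/

namespace Vale.Agent.P109.Spectral

open MeasureTheory
open scoped ENNReal ComplexConjugate

noncomputable section

variable {ι : Type} [Fintype ι]

theorem MClose.mono {α β : Type*} [MeasurableSpace α] [PseudoMetricSpace β] {μ : Measure α}
    {ε ε' : ℝ} {f g : α → β} (h : MClose μ ε f g) (hε : ε ≤ ε') : MClose μ ε' f g :=
  (measure_mono fun _ hx => hε.trans_lt hx).trans (h.trans (ENNReal.ofReal_le_ofReal hε))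

theorem MClose.symm {α β : Type*} [MeasurableSpace α] [PseudoMetricSpace β] {μ : Measure α}
    {ε : ℝ} {f g : α → β} (h : MClose μ ε f g) : MClose μ ε g f := by
  unfold MClose at h ⊢
  simpa [dist_comm] using h

theorem MClose.trans {α β : Type*} [MeasurableSpace α] [PseudoMetricSpace β] {μ : Measure α}
    {ε δ : ℝ} (hε : 0 ≤ ε) (hδ : 0 ≤ δ) {f g k : α → β} (h : MClose μ ε f g)
    (h' : MClose μ δ g k) : MClose μ (ε + δ) f k := by
  refine (measure_mono (t := {x | ε < dist (f x) (g x)} ∪ {x | δ < dist (g x) (k x)}) ?_).trans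
    ((measure_union_le _ _).trans ((add_le_add h h').trans_eq (ENNReal.ofReal_add hε hδ).symm))
  intro x hx
  simp only [Set.mem_union, Set.mem_ofPred_eq] at hx ⊢
  by_contra hn
  obtain ⟨h1, h2⟩ := not_or.mp hn
  linarith [dist_triangle (f x) (g x) (k x), not_lt.mp h1, not_lt.mp h2]

theorem MClose.of_ae_eq {α β : Type*} [MeasurableSpace α] [PseudoMetricSpace β] {μ : Measure α}
    {ε : ℝ} (hε : 0 ≤ ε) {f g : α → β} (h : f =ᵐ[μ] g) : MClose μ ε f g := by
  refine le_of_eq_of_le (measure_eq_zero_iff_ae_notMem.mpr (h.mono fun x hx => ?_)) zero_le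
  simp [hx, hε]

/-- precomposition with a measure preserving map -/
theorem MClose.comp {α γ β : Type*} [MeasurableSpace α] [MeasurableSpace γ] [PseudoMetricSpace β]
    {μ : Measure α} {ν : Measure γ} {D : α → γ} (hD : MeasurePreserving D μ ν) {ε : ℝ}
    {f g : γ → β} (h : MClose ν ε f g) : MClose μ ε (f ∘ D) (g ∘ D) := by
  obtain ⟨s, hs, hsm, hsv⟩ := exists_measurable_superset ν {x | ε < dist (f x) (g x)}
  calc μ {x | ε < dist ((f ∘ D) x) ((g ∘ D) x)} ≤ μ (D ⁻¹' s) :=
        measure_mono fun x hx => hs (show D x ∈ {y | ε < dist (f y) (g y)} from hx)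
    _ = ν s := hD.measure_preimage hsm.nullMeasurableSet
    _ ≤ ENNReal.ofReal ε := hsv.trans_le h

/-- smooth periodic functions -/
def SmoothPer (F : C(Tor ι, ℂ)) : Prop := ContDiff ℝ (⊤ : ℕ∞) fun x : ι → ℝ => F (proj x)

theorem smoothPer_mFourier (n : ι → ℤ) : SmoothPer (UnitAddTorus.mFourier n) := by
  unfold SmoothPer
  simp only [UnitAddTorus.mFourier, ContinuousMap.coe_mk, proj]
  refine contDiff_prod fun i _ => ?_
  simp only [fourier_coe_apply]
  exact (ContDiff.div_const (contDiff_const.mul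
    (Complex.ofRealCLM.contDiff.comp (contDiff_apply ℝ ℝ i))) _).cexp

theorem smoothPer_of_mem_span {F : C(Tor ι, ℂ)}
    (hF : F ∈ Submodule.span ℂ (Set.range (UnitAddTorus.mFourier (d := ι)))) : SmoothPer F := by
  induction hF using Submodule.span_induction with
  | mem x hx => obtain ⟨n, rfl⟩ := hx; exact smoothPer_mFourier n
  | zero => exact contDiff_const (c := (0 : ℂ))
  | add x y _ _ hx hy => exact hx.add hy
  | smul c x _ hx => exact hx.const_smul c

/-- a bounded measurable function on the torus is close in measure to a smooth periodic one -/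
theorem exists_smooth_near (g : Tor ι → ℝ) (hg : Measurable g) (C : ℝ) (hC : ∀ z, |g z| ≤ C)
    (ε : ℝ) (hε : 0 < ε) :
    ∃ F : C(Tor ι, ℝ), ContDiff ℝ (⊤ : ℕ∞) (fun x : ι → ℝ => F (proj x)) ∧
      MClose volume ε F g := by
  have hg' : MemLp (fun z => (g z : ℂ)) 1 (volume : Measure (Tor ι)) :=
    MemLp.of_bound (Complex.measurable_ofReal.comp hg).aestronglyMeasurable C
      (Filter.Eventually.of_forall fun z => by simpa using hC z)
  set η := ε * ε / 4 with hη
  have hη0 : 0 < η := by positivity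
  obtain ⟨u, hu⟩ := (ContinuousMap.toLp_denseRange (p := 1) ℂ (volume : Measure (Tor ι)) ℂ
    ENNReal.one_ne_top).exists_dist_lt hg'.toLp hη0
  have hspan : u ∈ closure (Submodule.span ℂ (Set.range (UnitAddTorus.mFourier (d := ι))) :
      Set C(Tor ι, ℂ)) := by
    rw [← Submodule.topologicalClosure_coe, UnitAddTorus.span_mFourier_closure_eq_top]
    trivial
  obtain ⟨P, hP, hPu⟩ := Metric.mem_closure_iff.mp hspan (ε / 4) (by positivity)
  refine ⟨⟨fun z => (P z).re, Complex.continuous_re.comp P.continuous⟩,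
    Complex.reCLM.contDiff.comp (smoothPer_of_mem_span hP), ?_⟩
  have h1 : MClose volume (ε / 2) (fun z => (u z : ℂ)) (fun z => (g z : ℂ)) := by
    have hae := (ContinuousMap.coeFn_toLp (p := 1) (𝕜 := ℂ) volume u).sub hg'.coeFn_toLp
    have hint : ∫⁻ z, ‖u z - (g z : ℂ)‖ₑ ≤ ENNReal.ofReal η := by
      rw [dist_comm, Lp.dist_def, eLpNorm_one_eq_lintegral_enorm] at hu
      have e : ∫⁻ z, ‖((ContinuousMap.toLp (E := ℂ) 1 volume ℂ u : Lp ℂ 1 (volume : Measure (Tor ι))) -
          ⇑hg'.toLp) z‖ₑ = ∫⁻ z, ‖u z - (g z : ℂ)‖ₑ :=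
        lintegral_congr_ae (hae.mono fun z hz => by dsimp only; rw [hz]; rfl)
      rw [e] at hu
      by_cases htop : ∫⁻ z, ‖u z - (g z : ℂ)‖ₑ = ⊤
      · exfalso
        have hfin : ∫⁻ z, ‖u z - (g z : ℂ)‖ₑ < ⊤ := by
          have hb : ∀ z, ‖u z - (g z : ℂ)‖ₑ ≤ ENNReal.ofReal (‖u‖ + C) := fun z => by
            rw [← ofReal_norm]
            exact ENNReal.ofReal_le_ofReal ((norm_sub_le _ _).trans
              (add_le_add (u.norm_coe_le_norm z) (by simpa using hC z)))
          refine (lintegral_mono hb).trans_lt ?_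
          rw [lintegral_const]
          exact ENNReal.mul_lt_top ENNReal.ofReal_lt_top (measure_lt_top _ _)
        exact hfin.ne htop
      · exact (ENNReal.le_ofReal_iff_toReal_le htop hη0.le).mpr hu.le
    unfold MClose
    have hsub : {z | ε / 2 < dist (u z) (g z : ℂ)} ⊆ {z | ENNReal.ofReal (ε / 2) ≤ ‖u z - (g z : ℂ)‖ₑ} :=
      fun z hz => by
        simp only [Set.mem_ofPred_eq, dist_eq_norm] at hz ⊢
        rw [← ofReal_norm]
        exact ENNReal.ofReal_le_ofReal hz.le
    refine (measure_mono hsub).trans ((meas_ge_le_lintegral_div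
      (u.continuous.measurable.sub (Complex.measurable_ofReal.comp hg)).enorm.aemeasurable
      (by simp [hε]) ENNReal.ofReal_ne_top).trans ?_)
    rw [ENNReal.div_le_iff (by simp [hε]) ENNReal.ofReal_ne_top, ← ENNReal.ofReal_mul (by positivity)]
    exact hint.trans_eq (congrArg ENNReal.ofReal (by rw [hη]; ring))
  have h2 : ∀ z, dist ((P z).re) (g z) ≤ ε / 4 + dist (u z) (g z : ℂ) := by
    intro z
    have a : ‖P z - u z‖ ≤ ε / 4 := by
      have := (P - u).norm_coe_le_norm z
      rw [ContinuousMap.sub_apply] at this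
      rw [dist_comm, dist_eq_norm] at hPu
      linarith
    rw [Real.dist_eq, dist_eq_norm]
    have b : |(P z - (g z : ℂ)).re| ≤ ‖P z - (g z : ℂ)‖ := Complex.abs_re_le_norm _
    simp only [Complex.sub_re, Complex.ofReal_re] at b
    linarith [norm_sub_le_norm_sub_add_norm_sub (P z) (u z) (g z : ℂ)]
  exact (measure_mono fun z (hz : ε < dist (P z).re (g z)) =>
    (show ε / 2 < dist (u z) (g z : ℂ) by linarith [h2 z])).trans
      (le_trans h1 (ENNReal.ofReal_le_ofReal (by linarith)))

/-- a representative in `[0, 1)` -/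
def frac (a : UnitAddCircle) : ℝ := (AddCircle.equivIco (1 : ℝ) 0 a : ℝ)

theorem frac_mem (a : UnitAddCircle) : 0 ≤ frac a ∧ frac a < 1 := by
  have h := (AddCircle.equivIco (1 : ℝ) 0 a).2
  simpa [frac] using h

theorem coe_frac (a : UnitAddCircle) : ((frac a : ℝ) : UnitAddCircle) = a :=
  (AddCircle.equivIco (1 : ℝ) 0).symm_apply_apply a

theorem measurable_frac : Measurable frac :=
  measurable_subtype_coe.comp (AddCircle.measurableEquivIco (T := 1) 0).measurable

/-- a measurable map between tori is close in measure to a continuous one -/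
theorem exists_continuous_near {κ : Type} [Fintype κ] (G : Tor ι → Tor κ) (hG : Measurable G)
    (ε : ℝ) (hε : 0 < ε) : ∃ Gc : Tor ι → Tor κ, Continuous Gc ∧ MClose volume ε Gc G := by
  rcases isEmpty_or_nonempty κ with hκ | hκ
  · exact ⟨G, continuous_pi fun k => (hκ.false k).elim, MClose.of_ae_eq hε.le Filter.EventuallyEq.rfl⟩
  have hc : (0 : ℝ) < Fintype.card κ := by exact_mod_cast Fintype.card_pos
  choose F _ hF using fun k => exists_smooth_near (fun z => frac (G z k))
    (measurable_frac.comp ((measurable_pi_apply k).comp hG)) 1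
    (fun z => by rw [abs_of_nonneg (frac_mem _).1]; exact (frac_mem _).2.le)
    (ε / Fintype.card κ) (by positivity)
  refine ⟨fun z k => ((F k z : ℝ) : UnitAddCircle),
    continuous_pi fun k => (AddCircle.continuous_mk' _).comp (F k).continuous, ?_⟩
  have hle : ε / Fintype.card κ ≤ ε := div_le_self hε.le (by exact_mod_cast Fintype.card_pos)
  unfold MClose
  refine (measure_mono (t := ⋃ k, {z | ε / Fintype.card κ < dist (F k z) (frac (G z k))})
    fun z hz => ?_).trans ((measure_iUnion_fintype_le _ _).trans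
      ((Finset.sum_le_sum fun k _ => hF k).trans_eq ?_))
  · simp only [Set.mem_ofPred_eq, Set.mem_iUnion] at hz ⊢
    by_contra hn
    push Not at hn
    refine absurd hz (not_lt.mpr ((dist_pi_le_iff hε.le).mpr fun k => ?_))
    refine le_trans ?_ ((hn k).trans hle)
    conv_lhs => rw [← coe_frac (G z k)]
    rw [dist_eq_norm, ← QuotientAddGroup.mk_sub, Real.dist_eq]
    exact QuotientAddGroup.norm_mk_le_norm
  · rw [Finset.sum_const, Finset.card_univ, nsmul_eq_mul, ← ENNReal.ofReal_natCast,
      ← ENNReal.ofReal_mul (Nat.cast_nonneg _)]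
    congr 1
    field_simp

/-- composition with a measurable map is continuous in measure -/
theorem mclose_postcomp {κ μ' : Type} [Fintype κ] [Fintype μ'] (G : Tor κ → Tor μ')
    (hG : Measurable G) {F : Tor ι → Tor κ} (hF : MeasurePreserving F volume volume) (ε : ℝ)
    (hε : 0 < ε) :
    ∃ δ > 0, ∀ D : Tor ι → Tor κ, MeasurePreserving D volume volume →
      MClose volume δ D F → MClose volume ε (G ∘ D) (G ∘ F) := by
  obtain ⟨Gc, hGc, hGG⟩ := exists_continuous_near G hG (ε / 4) (by positivity)
  obtain ⟨δ, hδ, hu⟩ := Metric.uniformContinuous_iff.mp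
    (CompactSpace.uniformContinuous_of_continuous hGc) (ε / 4) (by positivity)
  refine ⟨min (δ / 2) (ε / 4), by positivity, fun D hD hclose => ?_⟩
  have h1 : MClose volume (ε / 4) (Gc ∘ D) (Gc ∘ F) := by
    refine (measure_mono fun x (hx : ε / 4 < dist (Gc (D x)) (Gc (F x))) => ?_).trans
      (le_trans hclose (ENNReal.ofReal_le_ofReal (min_le_right _ _)))
    by_contra hn
    simp only [Set.mem_ofPred_eq, not_lt] at hn
    linarith [hu (show dist (D x) (F x) < δ by linarith [hn.trans (min_le_left (δ / 2) (ε / 4))])]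
  exact (((hGG.symm.comp hD).trans (by positivity) (by positivity) h1).trans (by positivity)
    (by positivity) (hGG.comp hF)).mono (by linarith)

/-- composition of approximable maps -/
theorem Approximable.comp {P : TD ι → Prop} (hP : ∀ D E, P D → P E → P (D.comp E))
    {F G : Tor ι → Tor ι} (hFm : MeasurePreserving F volume volume) (hGm : Measurable G)
    (hG : Approximable P G) (hF : Approximable P F) : Approximable P (G ∘ F) := by
  intro ε hε
  obtain ⟨δ, hδ, hcomp⟩ := mclose_postcomp G hGm hFm (ε / 2) (by positivity)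
  obtain ⟨D, hDP, hD⟩ := hG (ε / 2) (by positivity)
  obtain ⟨E, hEP, hE⟩ := hF δ hδ
  refine ⟨D.comp E, hP _ _ hDP hEP, ?_⟩
  exact ((hD.comp E.preserves).trans (by positivity) (by positivity)
    (hcomp _ E.preserves hE)).mono (by linarith)

theorem Approximable.of_map {P : TD ι → Prop} {D : TD ι} (hD : P D) :
    Approximable P D.map :=
  fun _ hε => ⟨D, hD, MClose.of_ae_eq hε.le Filter.EventuallyEq.rfl⟩

end

end Vale.Agent.P109.Spectral
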