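import Vale.Agent.P109.Spectral.Spec
import Vale.Agent.P109.Spectral.Step.Measure

/-!
P109: sectors of the circle and approximation of functions of labels by continuous functions.
-/

namespace Vale.Agent.P109.Spectral

open MeasureTheory

noncomputable section

theorem frac_coe (t : ℝ) : frac (t : UnitAddCircle) = Int.fract t := by
  simp [frac, AddCircle.coe_equivIco_mk_apply]

theorem coe_int (n : ℤ) : ((n : ℝ) : UnitAddCircle) = 0 :=
  (AddCircle.coe_eq_zero_iff 1).mpr ⟨n, by simp⟩

theorem norm_coe_le (t : ℝ) : ‖(t : UnitAddCircle)‖ ≤ |t| := by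
  simpa [Real.norm_eq_abs] using
    (QuotientAddGroup.norm_mk_le_norm (S := AddSubgroup.zmultiples (1 : ℝ)) (m := t))

theorem dist_coe_le (a b : ℝ) : dist (a : UnitAddCircle) (b : UnitAddCircle) ≤ |a - b| := by
  rw [dist_eq_norm]
  exact norm_coe_le (a - b)

theorem sector_add (q : ℕ) (hq : 0 < q) (n : ℤ) (s : ℝ) (h0 : 0 ≤ s) (h1 : s < 1) :
    sector q (((n + s) / q : ℝ) : UnitAddCircle) = (((n : ℝ) / q : ℝ) : UnitAddCircle) := by
  have hq' : (0 : ℝ) < q := by exact_mod_cast hq
  change (((⌊(q : ℝ) * frac (((n + s) / q : ℝ) : UnitAddCircle)⌋ : ℝ) / q : ℝ) : UnitAddCircle) = _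
  rw [frac_coe]
  have e : (q : ℝ) * Int.fract ((n + s) / q) = ((n - q * ⌊(n + s) / (q : ℝ)⌋ : ℤ) : ℝ) + s := by
    rw [← Int.self_sub_floor, mul_sub, mul_div_cancel₀ _ hq'.ne']
    push_cast
    ring
  rw [e, Int.floor_intCast_add, Int.floor_eq_iff.mpr (show ((0 : ℤ) : ℝ) ≤ s ∧ s < ((0 : ℤ) : ℝ) + 1
    by simp [h0, h1]), add_zero]
  push_cast
  rw [sub_div, mul_div_cancel_left₀ _ hq'.ne', QuotientAddGroup.mk_sub, coe_int, sub_zero]

theorem exists_sector_eq (q : ℕ) (a : UnitAddCircle) :
    ∃ n : ℤ, sector q a = (((n : ℝ) / q : ℝ) : UnitAddCircle) := ⟨_, rfl⟩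

theorem sector_sector_add (q : ℕ) (hq : 0 < q) (a : UnitAddCircle) (s : ℝ) (h0 : 0 ≤ s)
    (h1 : s < 1) : sector q (sector q a + ((s / q : ℝ) : UnitAddCircle)) = sector q a := by
  obtain ⟨n, hn⟩ := exists_sector_eq q a
  rw [hn, ← QuotientAddGroup.mk_add, ← add_div, sector_add q hq n s h0 h1]

theorem sector_idem (q : ℕ) (hq : 0 < q) (a : UnitAddCircle) :
    sector q (sector q a) = sector q a := by
  simpa using sector_sector_add q hq a 0 le_rfl one_pos

theorem sector_split (q : ℕ) (hq : 0 < q) (a : UnitAddCircle) :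
    a = sector q a + ((frac (q • a) / q : ℝ) : UnitAddCircle) := by
  have hq' : (q : ℝ) ≠ 0 := by exact_mod_cast hq.ne'
  obtain ⟨t, rfl⟩ : ∃ t : ℝ, (t : UnitAddCircle) = a := ⟨frac a, coe_frac a⟩
  change _ = (((⌊(q : ℝ) * frac (t : UnitAddCircle)⌋ : ℝ) / q : ℝ) : UnitAddCircle) + _
  rw [← QuotientAddGroup.mk_nsmul, nsmul_eq_mul, frac_coe, frac_coe, ← QuotientAddGroup.mk_add,
    ← add_div, ← Int.self_sub_floor t, ← Int.self_sub_floor ((q : ℝ) * t),
    show ⌊(q : ℝ) * (t - ⌊t⌋)⌋ = ⌊(q : ℝ) * t⌋ - q * ⌊t⌋ by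
      rw [← Int.floor_sub_intCast]; push_cast; congr 1; ring]
  push_cast
  rw [show ((⌊(q : ℝ) * t⌋ : ℝ) - q * ⌊t⌋ + (q * t - ⌊(q : ℝ) * t⌋)) / q = t - ⌊t⌋ by
    field_simp; ring, QuotientAddGroup.mk_sub, coe_int, sub_zero]

theorem smul_coe_div (q : ℕ) (hq : 0 < q) (t : ℝ) :
    q • ((t / q : ℝ) : UnitAddCircle) = (t : UnitAddCircle) := by
  rw [← QuotientAddGroup.mk_nsmul, nsmul_eq_mul, mul_div_cancel₀]
  exact_mod_cast hq.ne'

theorem measurable_sector (q : ℕ) : Measurable (sector q) := by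
  refine (AddCircle.continuous_mk' _).measurable.comp (Measurable.div_const ?_ _)
  exact ((measurable_of_countable _).comp
    (Int.measurable_floor.comp (measurable_frac.const_mul (q : ℝ))) : Measurable
      fun a : UnitAddCircle => ((⌊(q : ℝ) * frac a⌋ : ℤ) : ℝ))

theorem measurable_labCoord {d : ℕ} (q : ℕ) : Measurable (labCoord (d := d) q) := by
  refine measurable_pi_iff.mpr fun o => ?_
  cases o with
  | none => exact (measurable_sector q).comp (measurable_pi_apply _)
  | some i => exact measurable_pi_apply _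

/-- close to `0` mod `1/K` -/
theorem measure_near_cut {d : ℕ} (i : Ix d) (K : ℕ) (hK : 0 < K) (s : ℝ) :
    (volume : Measure (Tor (Ix d))) {w | ‖K • w i‖ ≤ s} ≤ ENNReal.ofReal (2 * s) := by
  let φ : Tor (Ix d) →+ UnitAddCircle :=
    { toFun := fun w => K • w i
      map_zero' := by simp
      map_add' := fun w w' => by simp }
  have hφ : MeasurePreserving φ volume volume := by
    refine AddMonoidHom.measurePreserving ((continuous_apply i).nsmul K) (fun a => ?_) ?_
    · exact ⟨fun _ => ((frac a / K : ℝ) : UnitAddCircle),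
        (smul_coe_div K hK (frac a)).trans (coe_frac a)⟩
    · rw [show (volume : Measure UnitAddCircle) Set.univ = 1 by simp,
        show (volume : Measure (Tor (Ix d))) Set.univ = 1 by rw [volume_pi, Measure.pi_univ]; simp]
  have e : {w : Tor (Ix d) | ‖K • w i‖ ≤ s} = φ ⁻¹' Metric.closedBall 0 s := by
    ext w
    simp [φ]
  rw [e, hφ.measure_preimage measurableSet_closedBall.nullMeasurableSet, AddCircle.volume_closedBall]
  exact ENNReal.ofReal_le_ofReal (min_le_right _ _)

/-- the rotation coordinates of a point -/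
def rotCoord (d : ℕ) : Tor (Ix d) →+ Tor (Fin d) where
  toFun z := fun i => z (Sum.inl i)
  map_zero' := rfl
  map_add' _ _ := rfl

theorem preserves_rotCoord (d : ℕ) : MeasurePreserving (rotCoord d) volume volume := by
  refine AddMonoidHom.measurePreserving
    (continuous_pi fun i => continuous_apply (Sum.inl i)) (fun a => ⟨Sum.elim a 0, rfl⟩) ?_
  rw [show (volume : Measure (Tor (Fin d))) Set.univ = 1 by rw [volume_pi, Measure.pi_univ]; simp,
    show (volume : Measure (Tor (Ix d))) Set.univ = 1 by rw [volume_pi, Measure.pi_univ]; simp]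

/-- a measurable function of the label is close to a continuous one -/
theorem exists_continuous_lab {d : ℕ} {κ : Type} [Fintype κ] (q : ℕ) (hq : 0 < q)
    (C : Lab d → Tor κ) (hC : Measurable C) (ε : ℝ) (hε : 0 < ε) :
    ∃ r : Lab d → Tor κ, Continuous r ∧
      MClose volume ε (fun z => r (labCoord q z)) (fun z => C (labCoord q z)) := by
  classical
  have hq' : (0 : ℝ) < q := by exact_mod_cast hq
  let pt : Fin q → Tor (Fin d) → Lab d := fun i θ o =>
    o.elim (((i : ℕ) : ℝ) / q : ℝ) θ
  have hpt : ∀ i, Measurable (pt i) := fun i => measurable_pi_iff.mpr fun o => by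
    cases o with
    | none => exact measurable_const
    | some k => exact measurable_pi_apply k
  let e := ε / ((Fintype.card (Fin q × κ) : ℝ) + 1)
  have he : 0 < e := by positivity
  have hee : e ≤ ε := div_le_self hε.le (le_add_of_nonneg_left (Nat.cast_nonneg _))
  choose F _ hF using fun ik : Fin q × κ => exists_smooth_near (fun θ => frac (C (pt ik.1 θ) ik.2))
    (measurable_frac.comp ((measurable_pi_apply ik.2).comp (hC.comp (hpt ik.1)))) 1
    (fun z => by rw [abs_of_nonneg (frac_mem _).1]; exact (frac_mem _).2.le) e he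
  let bump : Fin q → UnitAddCircle → ℝ := fun i a =>
    max 0 (1 - (q : ℝ) * ‖a - ((((i : ℕ) : ℝ) / q : ℝ) : UnitAddCircle)‖)
  let r : Lab d → Tor κ := fun p k =>
    ((∑ i, bump i (p none) * F (i, k) (fun l => p (some l)) : ℝ) : UnitAddCircle)
  refine ⟨r, continuous_pi fun k => (AddCircle.continuous_mk' _).comp
    (continuous_finsetSum _ fun i _ => ?_), ?_⟩
  · exact ((continuous_const.max (continuous_const.sub (continuous_const.mul
      ((continuous_apply _).sub continuous_const).norm))).mul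
      ((F (i, k)).continuous.comp (continuous_pi fun l => continuous_apply (some l))))
  have hr : ∀ (i : Fin q) (θ : Tor (Fin d)) (k : κ),
      r (pt i θ) k = ((F (i, k) θ : ℝ) : UnitAddCircle) := by
    intro i θ k
    simp only [r, pt, Option.elim_none, Option.elim_some]
    rw [Finset.sum_eq_single_of_mem i (Finset.mem_univ i) fun j _ hj => ?_]
    · simp [bump]
    · refine mul_eq_zero_of_left (max_eq_left ?_) _
      have hne : ((i : ℕ) : ℤ) - (j : ℕ) ≠ 0 := by
        rw [sub_ne_zero]
        exact fun h => hj (Fin.ext (Int.natCast_inj.mp h).symm)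
      have hb : |((i : ℕ) : ℤ) - (j : ℕ)| < q := by
        have := i.2
        have := j.2
        rw [abs_lt]
        omega
      rw [← QuotientAddGroup.mk_sub, ← sub_div, UnitAddCircle.norm_eq, sub_nonpos]
      have hint : ∀ l : ℤ, 1 ≤ (q : ℝ) * |((((i : ℕ) : ℤ) - (j : ℕ) : ℤ) : ℝ) / q - l| := by
        intro l
        rw [← abs_of_pos hq', ← abs_mul, mul_sub, abs_of_pos hq', mul_div_cancel₀ _ hq'.ne']
        have h1 : (1 : ℤ) ≤ |((i : ℕ) : ℤ) - (j : ℕ) - q * l| := by
          refine Int.one_le_abs fun h => hne ?_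
          rcases eq_or_ne l 0 with rfl | hl
          · simpa using h
          · exfalso
            have h2 : (q : ℤ) * 1 ≤ (q : ℤ) * |l| :=
              mul_le_mul_of_nonneg_left (Int.one_le_abs hl) (Int.natCast_nonneg q)
            have h3 : |((i : ℕ) : ℤ) - (j : ℕ)| = q * |l| := by
              rw [sub_eq_zero.mp h, abs_mul, Nat.abs_cast]
            omega
        have h4 : (1 : ℝ) ≤ |((((i : ℕ) : ℤ) - (j : ℕ) - q * l : ℤ) : ℝ)| := by exact_mod_cast h1
        simpa using h4
      simpa using hint (round ((((i : ℕ) : ℝ) - (j : ℕ)) / q))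
  have hlab : ∀ z : Tor (Ix d), ∃ i : Fin q, labCoord q z = pt i (rotCoord d z) := by
    intro z
    have h := frac_mem (z (Sum.inr 0))
    refine ⟨⟨⌊(q : ℝ) * frac (z (Sum.inr 0))⌋₊, ?_⟩, funext fun o => ?_⟩
    · rw [Nat.floor_lt (mul_nonneg hq'.le h.1)]
      exact mul_lt_of_lt_one_right hq' h.2
    · cases o with
      | none =>
        change sector q _ = (((⌊(q : ℝ) * frac (z (Sum.inr 0))⌋₊ : ℝ) / q : ℝ) : UnitAddCircle)
        rw [natCast_floor_eq_intCast_floor (mul_nonneg hq'.le h.1)]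
        rfl
      | some l => rfl
  refine (measure_mono (t := ⋃ ik : Fin q × κ, rotCoord d ⁻¹'
    {θ | e < dist (F ik θ) (frac (C (pt ik.1 θ) ik.2))}) fun z hz => ?_).trans
    ((measure_iUnion_fintype_le _ _).trans
      ((Finset.sum_le_sum fun ik _ => (hF ik).comp (preserves_rotCoord d)).trans ?_))
  · obtain ⟨i, hi⟩ := hlab z
    simp only [Set.mem_ofPred_eq, hi] at hz
    simp only [Set.mem_iUnion, Set.mem_preimage, Set.mem_ofPred_eq]
    by_contra hn
    push Not at hn
    refine absurd hz (not_lt.mpr ((dist_pi_le_iff hε.le).mpr fun k => ?_))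
    rw [hr]
    conv_lhs => rw [← coe_frac (C (pt i (rotCoord d z)) k)]
    exact ((dist_coe_le _ _).trans_eq (Real.dist_eq _ _).symm).trans ((hn (i, k)).trans hee)
  · rw [Finset.sum_const, Finset.card_univ, nsmul_eq_mul, ← ENNReal.ofReal_natCast,
      ← ENNReal.ofReal_mul (Nat.cast_nonneg _)]
    refine ENNReal.ofReal_le_ofReal ?_
    rw [← mul_div_assoc, div_le_iff₀ (by positivity)]
    linarith

end

end Vale.Agent.P109.Spectral
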