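import Vale.Agent.P109.Spectral.Step.Conc

/-!
P109: renormalisation when the denominator grows.
-/

namespace Vale.Agent.P109.Spectral

open MeasureTheory

noncomputable section

variable {d : ℕ}

/-- rows of `L` for a growing denominator -/
def matA (r : ℤ) : Matrix (Ix d) (Ix d) ℤ :=
  Matrix.fromBlocks 1 0 0 !![r, -1; 1, 0]

/-- rows of the inverse of `L` -/
def matA' (r : ℤ) : Matrix (Ix d) (Ix d) ℤ :=
  Matrix.fromBlocks 1 0 0 !![0, 1; -1, r]

theorem matA_mul (r : ℤ) : matA (d := d) r * matA' r = 1 := by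
  rw [matA, matA', Matrix.fromBlocks_multiply]
  simp [← Matrix.one_fin_two]

theorem renormA (σ : Stage d) (X : Ext σ) (hβ : X.β = σ.β) (hv : X.v = 1 / (X.q : ℝ)) :
    Renorm σ X X.r := by
  have hq := σ.q_pos
  have hr := X.r_pos
  have hQ : 0 < X.q := by rw [X.q_eq]; exact Nat.mul_pos hq hr
  have hqR : (σ.q : ℝ) ≠ 0 := by exact_mod_cast hq.ne'
  have hrR : (X.r : ℝ) ≠ 0 := by exact_mod_cast hr.ne'
  have hQe : (X.q : ℝ) = σ.q * X.r := by exact_mod_cast X.q_eq
  have hcomb : ∀ i, X.A i - Pi.single i 1 = 0 := fun i => X.eq_zero_of_comb _ (X.c i) (by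
    have h := X.old_circle i
    rw [← hβ] at h
    simp only [Pi.sub_apply, sub_smul, Finset.sum_sub_distrib, Pi.single_apply, ite_smul, one_smul,
      zero_smul, Finset.sum_ite_eq', Finset.mem_univ, if_true]
    rw [sub_add_eq_add_sub, sub_eq_zero]
    exact h.symm)
  have hA : ∀ i, X.A i = Pi.single i 1 := fun i => sub_eq_zero.mp (hcomb i)
  have hc : ∀ i, X.c i • (((1 : ℝ) / X.q : ℝ) : UnitAddCircle) = 0 := fun i => by
    have h := X.old_circle i
    rw [← hβ, hA i] at h
    simpa [Pi.single_apply, ite_smul] using h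
  let L : TD (Ix d) := TD.lin (matA (X.r : ℤ)) (matA' (X.r : ℤ)) (matA_mul _)
    (mul_eq_one_comm.mp (matA_mul _))
  have hLl : ∀ z i, L.map z (Sum.inl i) = z (Sum.inl i) := fun z i => by
    simp [L, TD.lin_map_apply, matA, Fintype.sum_sum_type, Matrix.one_apply, ite_smul]
  have hLx : ∀ z, L.map z (Sum.inr 0) = X.r • z (Sum.inr 0) - z (Sum.inr 1) := fun z => by
    simp [L, TD.lin_map_apply, matA, Fintype.sum_sum_type, Fin.sum_univ_two, sub_eq_add_neg]
  have hLy : ∀ z, L.map z (Sum.inr 1) = z (Sum.inr 0) := fun z => by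
    simp [L, TD.lin_map_apply, matA, Fintype.sum_sum_type, Fin.sum_univ_two]
  let Xc : Ix d := Sum.inr 0
  let Yc : Ix d := Sum.inr 1
  have hXY : Xc ≠ Yc := by simp [Xc, Yc]
  let g1 : UnitAddCircle → UnitAddCircle := fun w => -((frac w / σ.q : ℝ) : UnitAddCircle)
  let g2 : UnitAddCircle → UnitAddCircle :=
    fun w => (((⌈(σ.q : ℝ) * frac w⌉ : ℝ) / X.q : ℝ) : UnitAddCircle)
  let g3 : UnitAddCircle → UnitAddCircle := fun w => ((frac w / σ.q : ℝ) : UnitAddCircle)
  have hg1 : Measurable g1 := (measurable_coe.comp (measurable_frac.div_const _)).neg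
  have hg2 : Measurable g2 := measurable_coe.comp (((measurable_of_countable _).comp
    (Int.measurable_ceil.comp (measurable_frac.const_mul (σ.q : ℝ))) : Measurable
      fun w : UnitAddCircle => ((⌈(σ.q : ℝ) * frac w⌉ : ℤ) : ℝ)).div_const _)
  have hg3 : Measurable g3 := measurable_coe.comp (measurable_frac.div_const _)
  let s1 := shear1 Yc Xc hXY X.q hQ g1 hg1
  let s2 := shear1 Xc Yc hXY.symm 1 one_pos g2 hg2
  let s3 := shear1 Yc Xc hXY X.q hQ g3 hg3
  let ψ := s3.map ∘ s2.map ∘ s1.map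
  have hval : ∀ z, (∀ i, ψ z (Sum.inl i) = z (Sum.inl i)) ∧ ψ z Yc = z Yc ∧
      ∃ g : ℤ, ∃ u : ℝ, 0 ≤ (g : ℝ) - u ∧ (g : ℝ) - u < 1 ∧ 0 ≤ (g : ℝ) ∧ g ≤ (σ.q : ℤ) ∧
        z Yc = ((u / σ.q : ℝ) : UnitAddCircle) + ((frac (X.q • z Xc) / σ.q : ℝ) : UnitAddCircle) ∧
        ψ z Xc = z Xc + (((g : ℝ) / X.q : ℝ) : UnitAddCircle) := by
    intro z
    have e2 : ∀ (g : ℤ), X.q • (z Xc + (((g : ℝ) / X.q : ℝ) : UnitAddCircle)) = X.q • z Xc :=
      fun g => by rw [smul_add, smul_coe_div X.q hQ, coe_int, add_zero]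
    simp only [ψ, Function.comp_apply, s1, s2, s3, shear1_map]
    refine ⟨fun i => by simp [Xc, Yc], ?_,
      ⌈(σ.q : ℝ) * frac (z Yc + g1 (X.q • z Xc))⌉,
      (σ.q : ℝ) * frac (z Yc + g1 (X.q • z Xc)), sub_nonneg.mpr (Int.le_ceil _),
      by linarith [Int.ceil_lt_add_one ((σ.q : ℝ) * frac (z Yc + g1 (X.q • z Xc)))], ?_, ?_, ?_, ?_⟩
    · simp only [Function.update_self, Function.update_of_ne hXY.symm, Function.update_of_ne hXY]
      simp only [g1, g2, g3, one_smul, e2]
      abel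
    · exact (mul_nonneg (Nat.cast_nonneg _) (frac_mem _).1).trans (Int.le_ceil _)
    · refine Int.ceil_le.mpr ?_
      push_cast
      exact mul_le_of_le_one_right (Nat.cast_nonneg _) (frac_mem _).2.le
    · rw [mul_div_cancel_left₀ _ hqR, coe_frac]
      simp only [g1]
      abel
    · simp only [Function.update_self, Function.update_of_ne hXY.symm, Function.update_of_ne hXY,
        one_smul, g2]
  refine ⟨L, ψ, TD.lin_add _ _ _ _, ?_, s3.preserves.comp (s2.preserves.comp s1.preserves),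
    fun t ht => ?_, fun z => funext fun o => ?_, hr, ?_, fun z z' hzz => ?_⟩
  · funext i
    rcases i with i | i
    · rw [hLl, proj_add, Pi.add_apply, congrFun σ.proj_vec]
      simp [proj, baseVec, hβ]
    · fin_cases i
      · change L.map _ (Sum.inr 0) = _
        rw [hLx, proj_add, Pi.add_apply, congrFun σ.proj_vec]
        simp [proj, baseVec, hQe]
        rw [← AddCircle.coe_nsmul, nsmul_eq_mul]
        congr 1
        field_simp
      · change L.map _ (Sum.inr 1) = _
        rw [hLy, proj_add, Pi.add_apply, congrFun σ.proj_vec]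
        simp [proj, baseVec, hv]
  · exact Approximable.comp (fun _ _ => Comm.comp) (s2.preserves.comp s1.preserves)
      s3.measurable_map (s3.approximable t fun _ => mult_x hQ ht)
      (Approximable.comp (fun _ _ => Comm.comp) s1.preserves s2.measurable_map
        (s2.approximable t fun _ => mult_y 1 ht) (s1.approximable t fun _ => mult_x hQ ht))
  · obtain ⟨h1, h2, g, u, hu0, hu1, -, -, hy, hx⟩ := hval z
    cases o with
    | none =>
      change sector σ.q (L.map (ψ z) (Sum.inr 0)) = X.r • sector X.q (z Xc)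
      obtain ⟨n, hn⟩ := exists_sector_eq X.q (z Xc)
      have hrn : X.r • ((((n : ℝ)) / X.q : ℝ) : UnitAddCircle) =
          (((n : ℝ) / σ.q : ℝ) : UnitAddCircle) := by
        rw [← QuotientAddGroup.mk_nsmul, nsmul_eq_mul, hQe]
        congr 1
        field_simp
      have hsp := sector_split X.q hQ (z Xc)
      rw [hn] at hsp ⊢
      rw [hrn, hLx, show ψ z (Sum.inr 0) = _ from hx, show ψ z (Sum.inr 1) = _ from h2.trans hy]
      generalize frac (X.q • z Xc) = ξ at hsp ⊢
      rw [hsp, ← QuotientAddGroup.mk_add, ← QuotientAddGroup.mk_add, ← QuotientAddGroup.mk_add,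
        ← QuotientAddGroup.mk_nsmul, nsmul_eq_mul, ← QuotientAddGroup.mk_sub,
        show (X.r : ℝ) * ((n : ℝ) / X.q + ξ / X.q + (g : ℝ) / X.q) - (u / σ.q + ξ / σ.q) =
          ((n : ℝ) + ((g : ℝ) - u)) / σ.q by rw [hQe]; field_simp; ring]
      exact sector_add σ.q hq n _ hu0 hu1
    | some i =>
      change L.map (ψ z) (Sum.inl i) = (∑ k, X.A i k • z (Sum.inl k)) + X.c i • sector X.q (z Xc)
      obtain ⟨n, hn⟩ := exists_sector_eq X.q (z Xc)
      rw [hLl, h1, hA i, hn, show (((n : ℝ) / X.q : ℝ) : UnitAddCircle) =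
        n • (((1 : ℝ) / X.q : ℝ) : UnitAddCircle) by
        rw [← QuotientAddGroup.mk_zsmul, zsmul_eq_mul, mul_one_div], smul_comm, hc i, smul_zero,
        add_zero]
      simp [Pi.single_apply, ite_smul]
  · rw [hv, ← QuotientAddGroup.mk_nsmul, nsmul_eq_mul, hQe,
      show (X.r : ℝ) * (1 / (σ.q * X.r)) = 1 / (σ.q : ℝ) by field_simp]
    exact AddSubgroup.subset_closure (Set.mem_union_right _ rfl)
  · obtain ⟨-, -, g, u, -, -, hg0, hgq, -, hx⟩ := hval z
    obtain ⟨-, -, g', u', -, -, hg0', hgq', -, hx'⟩ := hval z'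
    have hs : sector X.q (z Xc) = sector X.q (z' Xc) := congrFun hzz none
    rw [hLy, hLy, show ψ z (Sum.inr 0) = _ from hx, show ψ z' (Sum.inr 0) = _ from hx',
      sector_split X.q hQ (z Xc), sector_split X.q hQ (z' Xc), hs, add_assoc, add_assoc,
      dist_add_left, ← QuotientAddGroup.mk_add, ← QuotientAddGroup.mk_add, ← add_div, ← add_div]
    refine (dist_coe_le _ _).trans ?_
    have hgR : (g : ℝ) ≤ σ.q := by exact_mod_cast hgq
    have hgR' : (g' : ℝ) ≤ σ.q := by exact_mod_cast hgq'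
    have h1q : (1 : ℝ) ≤ σ.q := by exact_mod_cast hq
    rw [← sub_div, abs_div, Nat.abs_cast, hQe,
      div_le_div_iff₀ (by positivity) (by positivity)]
    have := abs_le.mpr (show -(2 * (σ.q : ℝ)) ≤ frac (X.q • z Xc) + g - (frac (X.q • z' Xc) + g') ∧
        frac (X.q • z Xc) + g - (frac (X.q • z' Xc) + g') ≤ 2 * (σ.q : ℝ) by
      constructor <;>
        linarith [(frac_mem (X.q • z Xc)).1, (frac_mem (X.q • z Xc)).2,
          (frac_mem (X.q • z' Xc)).1, (frac_mem (X.q • z' Xc)).2])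
    nlinarith [abs_nonneg (frac (X.q • z Xc) + g - (frac (X.q • z' Xc) + g'))]

end

end Vale.Agent.P109.Spectral
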